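import Vale.Agent.P074.Defs
import Mathlib.MeasureTheory.Covering.DensityTheorem
import Mathlib.MeasureTheory.Measure.Lebesgue.EqHaar
import Mathlib.Analysis.Convex.Measure
import Mathlib.MeasureTheory.Integral.Average
import Mathlib.MeasureTheory.Integral.Lebesgue.Map

/-!
# Optimal maps from a uniform source are cyclically monotone

Cycling small translated balls preserves the source, so optimality among maps already gives
cyclic monotonicity at every Lebesgue point of the map.
-/

open MeasureTheory Filter Topology Metric Set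
open scoped ENNReal RealInnerProductSpace

namespace Vale.Agent.P074

variable {d : ℕ}

/-- Lebesgue points along balls that need not be centred at the point. -/
def IsGoodPoint (T : Euc d → Euc d) (x : Euc d) : Prop :=
  ∀ N : ℕ, ∀ w : ℝ → Euc d, (∀ᶠ r in 𝓝[>] (0 : ℝ), x ∈ closedBall (w r) (N * r)) →
    Tendsto (fun r => ⨍ y in closedBall (w r) r, ‖T y - T x‖) (𝓝[>] (0 : ℝ)) (𝓝 0)

lemma ae_isGoodPoint {T : Euc d → Euc d} {R : ℝ} (hT : Measurable T) (hR : ∀ x, ‖T x‖ ≤ R) :
    ∀ᵐ x ∂(volume : Measure (Euc d)), IsGoodPoint T x := by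
  have hloc : LocallyIntegrable T (volume : Measure (Euc d)) :=
    (MeasureTheory.locallyIntegrable_const R).mono hT.aestronglyMeasurable
      (ae_of_all _ fun x => (hR x).trans (Real.norm_eq_abs R ▸ le_abs_self R))
  refine ae_all_iff.2 fun N => ?_
  filter_upwards [IsUnifLocDoublingMeasure.ae_tendsto_average_norm_sub
    (μ := (volume : Measure (Euc d))) hloc (N : ℝ)] with x hx w hw
  exact hx w id tendsto_id hw

lemma abs_sq_sub_sq_le {a b c M : ℝ} (ha : 0 ≤ a) (hb : 0 ≤ b) (haM : a ≤ M) (hbM : b ≤ M)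
    (h : |a - b| ≤ c) : |a ^ 2 - b ^ 2| ≤ 2 * M * c := by
  rw [sq_sub_sq, abs_mul, abs_of_nonneg (by linarith : 0 ≤ a + b)]
  exact mul_le_mul (by linarith) h (abs_nonneg _) (by linarith)

lemma integrableOn_sq {T : Euc d → Euc d} {R : ℝ} (hT : Measurable T) (hR : ∀ x, ‖T x‖ ≤ R)
    (q c : Euc d) (r : ℝ) :
    IntegrableOn (fun y => ‖y + q - T y‖ ^ 2) (closedBall c r) := by
  refine Measure.integrableOn_of_bounded (M := (‖c‖ + r + ‖q‖ + R) ^ 2)
    measure_closedBall_lt_top.ne
      ((((measurable_id.add_const q).sub hT).norm).pow_const 2).aestronglyMeasurable ?_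
  refine (ae_restrict_mem measurableSet_closedBall).mono fun y hy => ?_
  rw [Real.norm_eq_abs, abs_of_nonneg (sq_nonneg _)]
  refine pow_le_pow_left₀ (norm_nonneg _) ?_ 2
  have h1 : ‖y - c‖ ≤ r := mem_closedBall_iff_norm.1 hy
  calc ‖y + q - T y‖ ≤ ‖y + q‖ + ‖T y‖ := norm_sub_le _ _
    _ ≤ _ := by linarith [norm_add_le y q, norm_le_norm_add_norm_sub' y c, hR y]

lemma tendsto_ball_cost {T : Euc d → Euc d} {R : ℝ} (hT : Measurable T) (hR : ∀ x, ‖T x‖ ≤ R)
    {p p' : Euc d} (hp' : IsGoodPoint T p') (v v' : Euc d) :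
    Tendsto (fun r => ⨍ y in closedBall (p' + r • v') r,
      ‖y + ((p + r • v) - (p' + r • v')) - T y‖ ^ 2) (𝓝[>] (0 : ℝ)) (𝓝 (‖p - T p'‖ ^ 2)) := by
  obtain ⟨N, hN⟩ := exists_nat_ge ‖v'‖
  have hpos : ∀ᶠ r in 𝓝[>] (0 : ℝ), 0 < r := self_mem_nhdsWithin
  have hone : ∀ᶠ r in 𝓝[>] (0 : ℝ), r ≤ 1 :=
    nhdsWithin_le_nhds (eventually_le_nhds one_pos)
  have hgood := hp' N (fun r => p' + r • v') (hpos.mono fun r hr => by
    rw [mem_closedBall_iff_norm, sub_add_cancel_left, norm_neg, norm_smul, Real.norm_eq_abs,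
      abs_of_pos hr, mul_comm]
    exact mul_le_mul_of_nonneg_right hN hr.le)
  set M : ℝ := ‖p‖ + ‖v‖ + 1 + R
  have hM : 0 ≤ R := (norm_nonneg _).trans (hR p)
  rw [tendsto_iff_norm_sub_tendsto_zero]
  refine squeeze_zero' (Eventually.of_forall fun r => norm_nonneg _)
    (g := fun r => 2 * M * ((1 + ‖v‖) * r + ⨍ y in closedBall (p' + r • v') r, ‖T y - T p'‖))
    ?_ ?_
  · filter_upwards [hpos, hone] with r hr hr1
    set c' := p' + r • v'
    set B := closedBall c' r
    have hvol : 0 < volume.real B :=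
      ENNReal.toReal_pos (measure_closedBall_pos volume c' hr).ne' measure_closedBall_lt_top.ne
    have hi1 := integrableOn_sq hT hR ((p + r • v) - c') c' r
    have hiT : IntegrableOn (fun y => ‖T y - T p'‖) B :=
      Measure.integrableOn_of_bounded (M := 2 * R) measure_closedBall_lt_top.ne
        ((hT.sub_const _).norm).aestronglyMeasurable
        (ae_of_all _ fun y => by
          rw [norm_norm]
          linarith [norm_sub_le (T y) (T p'), hR y, hR p'])
    have hc : ∀ a : ℝ, IntegrableOn (fun _ : Euc d => a) B := fun a =>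
      integrableOn_const measure_closedBall_lt_top.ne
    simp only [setAverage_eq, smul_eq_mul, Real.norm_eq_abs]
    have h1 : (volume.real B)⁻¹ * (∫ y in B, ‖y + ((p + r • v) - c') - T y‖ ^ 2) - ‖p - T p'‖ ^ 2
        = (volume.real B)⁻¹ *
          ∫ y in B, (‖y + ((p + r • v) - c') - T y‖ ^ 2 - ‖p - T p'‖ ^ 2) := by
      rw [integral_sub hi1 (hc _), setIntegral_const, smul_eq_mul]
      simp only [B] at hvol ⊢
      field_simp
    rw [h1, abs_mul, abs_of_pos (inv_pos.2 hvol)]
    have h2 : |∫ y in B, (‖y + ((p + r • v) - c') - T y‖ ^ 2 - ‖p - T p'‖ ^ 2)|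
        ≤ ∫ y in B, 2 * M * ((1 + ‖v‖) * r + ‖T y - T p'‖) := by
      refine (abs_integral_le_integral_abs).trans ?_
      refine setIntegral_mono_on ((hi1.sub (hc _)).abs) (((hc _).add hiT).const_mul _)
        measurableSet_closedBall fun y hy => ?_
      have hy' : ‖y - c'‖ ≤ r := mem_closedBall_iff_norm.1 hy
      have hrv : ‖r • v‖ = r * ‖v‖ := by rw [norm_smul, Real.norm_eq_abs, abs_of_pos hr]
      refine abs_sq_sub_sq_le (norm_nonneg _) (norm_nonneg _) ?_ ?_ ?_
      · have : y + ((p + r • v) - c') - T y = (y - c') + p + r • v + -T y := by abel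
        rw [this]
        refine norm_add₄_le.trans ?_
        simp only [M, norm_neg, hrv]
        nlinarith [hR y, norm_nonneg v]
      · simp only [M]
        linarith [norm_sub_le p (T p'), hR p', norm_nonneg v]
      · refine (abs_norm_sub_norm_le _ _).trans ?_
        have : y + ((p + r • v) - c') - T y - (p - T p')
            = (y - c') + r • v + -(T y - T p') := by abel
        rw [this]
        refine norm_add₃_le.trans ?_
        rw [hrv, norm_neg]
        linarith
    refine (mul_le_mul_of_nonneg_left h2 (inv_nonneg.2 hvol.le)).trans (le_of_eq ?_)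
    rw [integral_const_mul, integral_add (hc _) hiT, setIntegral_const, smul_eq_mul]
    field_simp
  · have : Tendsto (fun r : ℝ => (1 + ‖v‖) * r) (𝓝[>] 0) (𝓝 0) := by
      simpa using ((tendsto_id (x := 𝓝 (0 : ℝ))).mono_left
        (nhdsWithin_le_nhds (s := Ioi (0 : ℝ)))).const_mul (1 + ‖v‖)
    simpa using (this.add hgood).const_mul (2 * M)

/-- Cyclic monotonicity of the graph over a set of full measure. -/
theorem exists_cyclicallyMonotone {K : Set (Euc d)} (hd : 0 < d) (hK : IsCompact K)
    (hconv : Convex ℝ K) (hKint : (interior K).Nonempty)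
    {T : Euc d → Euc d} {R : ℝ} (hT : Measurable T) (hR : ∀ x, ‖T x‖ ≤ R)
    (hopt : ∀ S : Euc d → Euc d, Measurable S →
      (uniformMeasure K).map S = (uniformMeasure K).map T →
      transportCost (uniformMeasure K) T ≤ transportCost (uniformMeasure K) S) :
    ∃ A : Set (Euc d), A ⊆ K ∧ (∀ᵐ x ∂(volume : Measure (Euc d)).restrict K, x ∈ A) ∧
      ∀ (n : ℕ) (x : Fin n → Euc d), (∀ i, x i ∈ A) → ∀ σ : Equiv.Perm (Fin n),
        ∑ i, ⟪x i, T (x (σ i))⟫ ≤ ∑ i, ⟪x i, T (x i)⟫ := by
  refine ⟨{x | x ∈ interior K ∧ IsGoodPoint T x}, fun x hx => interior_subset hx.1, ?_, ?_⟩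
  · have h1 : ∀ᵐ x ∂(volume : Measure (Euc d)), x ∉ frontier K :=
      measure_eq_zero_iff_ae_notMem.1 (hconv.addHaar_frontier volume)
    filter_upwards [ae_restrict_mem hK.measurableSet, ae_restrict_of_ae h1,
      ae_restrict_of_ae (ae_isGoodPoint hT hR)] with x hxK hxf hxg
    refine ⟨?_, hxg⟩
    by_contra h
    exact hxf ⟨subset_closure hxK, h⟩
  intro n x hx σ
  let u : Euc d := EuclideanSpace.single ⟨0, hd⟩ 1
  have hu : ‖u‖ = 1 := by simp [u]
  let v : Fin n → Euc d := fun i => ((3 : ℝ) * (i : ℕ)) • u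
  let c : ℝ → Fin n → Euc d := fun r i => x i + r • v i
  have hcont : ∀ i, Tendsto (fun r => c r i) (𝓝[>] (0 : ℝ)) (𝓝 (x i)) := fun i => by
    refine Tendsto.mono_left ?_ nhdsWithin_le_nhds
    simpa [c] using (((continuous_id.smul continuous_const).const_add (x i)).tendsto (0 : ℝ) :
      Tendsto (fun r : ℝ => x i + r • v i) _ _)
  have hsub : ∀ᶠ r in 𝓝[>] (0 : ℝ), ∀ i, closedBall (c r i) r ⊆ K := by
    refine eventually_all.2 fun i => ?_
    obtain ⟨e, he, hball⟩ := Metric.isOpen_iff.1 isOpen_interior (x i) (hx i).1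
    filter_upwards [(hcont i).eventually (ball_mem_nhds _ (half_pos he)),
      nhdsWithin_le_nhds (eventually_le_nhds (half_pos he))] with r hr hr2 y hy
    refine interior_subset (hball ?_)
    rw [mem_ball]
    linarith [dist_triangle y (c r i) (x i), mem_closedBall.1 hy]
  have hdisj : ∀ᶠ r in 𝓝[>] (0 : ℝ),
      Pairwise (Function.onFun Disjoint fun i => closedBall (c r i) r) := by
    refine (eventually_all.2 fun i => eventually_all.2 fun j => ?_ :
      ∀ᶠ r in 𝓝[>] (0 : ℝ), ∀ i j, i ≠ j → Disjoint (closedBall (c r i) r) (closedBall (c r j) r))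
    by_cases hij : x i = x j
    · filter_upwards [self_mem_nhdsWithin] with r (hr : 0 < r) hne
      refine closedBall_disjoint_closedBall ?_
      have hd' : dist (c r i) (c r j) = 3 * r * |((i : ℕ) : ℝ) - ((j : ℕ) : ℝ)| := by
        simp only [c, v, hij, dist_eq_norm, add_sub_add_left_eq_sub, smul_smul, ← sub_smul, norm_smul, hu,
          mul_one, Real.norm_eq_abs]
        rw [← mul_sub, ← mul_sub, abs_mul, abs_mul, abs_of_pos hr, abs_of_pos three_pos]
        ring
      have hne' : (i : ℕ) ≠ (j : ℕ) := fun h => hne (Fin.ext h)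
      have h1 : (1 : ℝ) ≤ |((i : ℕ) : ℝ) - ((j : ℕ) : ℝ)| := by
        rcases Nat.lt_or_gt_of_ne hne' with h | h
        · rw [abs_sub_comm]
          exact le_abs.2 (Or.inl (by
            have : ((i : ℕ) : ℝ) + 1 ≤ (j : ℕ) := by exact_mod_cast h
            linarith))
        · exact le_abs.2 (Or.inl (by
            have : ((j : ℕ) : ℝ) + 1 ≤ (i : ℕ) := by exact_mod_cast h
            linarith))
      nlinarith
    · have h0 : 0 < dist (x i) (x j) := dist_pos.2 hij
      filter_upwards [((hcont i).dist (hcont j)).eventually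
          (eventually_gt_nhds (half_lt_self h0)),
        nhdsWithin_le_nhds (eventually_le_nhds (show (0 : ℝ) < dist (x i) (x j) / 4 by linarith))]
        with r hr hr2 _
      exact closedBall_disjoint_closedBall (by linarith)
  have hineq : ∀ᶠ r in 𝓝[>] (0 : ℝ),
      ∑ i, (⨍ y in closedBall (c r i) r, ‖y + (c r i - c r i) - T y‖ ^ 2) ≤
        ∑ i, ⨍ y in closedBall (c r (σ i)) r, ‖y + (c r i - c r (σ i)) - T y‖ ^ 2 := by
    filter_upwards [hsub, hdisj, self_mem_nhdsWithin] with r hsub hdisj (hr : 0 < r)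
    set B : Fin n → Set (Euc d) := fun i => closedBall (c r i) r
    set U : Set (Euc d) := ⋃ i, B i
    have hBm : ∀ i, MeasurableSet (B i) := fun i => measurableSet_closedBall
    have hUm : MeasurableSet U := MeasurableSet.iUnion hBm
    have hUK : U ⊆ K := iUnion_subset hsub
    let s : Fin n → Euc d := fun i => c r (σ i) - c r i
    let τ : Euc d → Euc d := fun y => y + ∑ i, (B i).indicator (fun _ => s i) y
    have hτin : ∀ i, ∀ y ∈ B i, τ y = y + s i := fun i y hy => by
      simp only [τ]
      rw [Finset.sum_eq_single i (fun j _ hji => indicator_of_notMem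
        (Set.disjoint_left.1 (hdisj hji.symm) hy) _) (by simp), indicator_of_mem hy]
    have hτout : ∀ y ∉ U, τ y = y := fun y hy => by
      simp only [τ]
      rw [Finset.sum_eq_zero fun j _ => indicator_of_notMem
        (fun h => hy (mem_iUnion.2 ⟨j, h⟩)) _, add_zero]
    have hτm : Measurable τ :=
      measurable_id.add (Finset.measurable_sum _ fun i _ =>
        (measurable_const.indicator (hBm i)))
    have hsplit : ∀ g : Euc d → ℝ≥0∞, ∫⁻ y in K, g y
        = (∑ i, ∫⁻ y in B i, g y) + ∫⁻ y in K \ U, g y := fun g => by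
      have h1 : ∫⁻ y in U, g y = ∑ i, ∫⁻ y in B i, g y := by
        rw [lintegral_iUnion hBm hdisj, tsum_fintype]
      rw [← h1, ← lintegral_union (hK.measurableSet.diff hUm) disjoint_sdiff_right,
        union_sdiff_cancel hUK]
    have hshift : ∀ i, ∀ g : Euc d → ℝ≥0∞,
        ∫⁻ y in B i, g (y + s i) = ∫⁻ y in B (σ i), g y := fun i g => by
      have hpre : (fun y => y + s i) ⁻¹' B (σ i) = B i := by
        ext y
        simp only [B, s, mem_preimage, mem_closedBall, dist_eq_norm]
        rw [show y + (c r (σ i) - c r i) - c r (σ i) = y - c r i by abel]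
      rw [← (measurePreserving_add_right volume (s i)).setLIntegral_comp_preimage_emb
        (measurableEmbedding_addRight (s i)) g (B (σ i)), hpre]
    have hcompl : ∀ g : Euc d → ℝ≥0∞, ∫⁻ y in K \ U, g (τ y) = ∫⁻ y in K \ U, g y :=
      fun g => setLIntegral_congr_fun (hK.measurableSet.diff hUm) fun y hy => by
        rw [hτout y hy.2]
    have hinv : (uniformMeasure K).map τ = uniformMeasure K := by
      unfold uniformMeasure
      rw [Measure.map_smul]
      congr 1
      refine Measure.ext_of_lintegral _ fun g hg => ?_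
      rw [lintegral_map hg hτm, hsplit, hsplit g, hcompl g]
      congr 1
      rw [← Equiv.sum_comp σ (fun i => ∫⁻ y in B i, g y)]
      refine Finset.sum_congr rfl fun i _ => ?_
      rw [← hshift i g]
      exact setLIntegral_congr_fun (hBm i) fun y hy => by rw [hτin i y hy]
    have hcost := hopt (T ∘ τ) (hT.comp hτm) (by rw [← Measure.map_map hT hτm, hinv])
    have hK0 : volume K ≠ 0 := (Measure.measure_pos_of_nonempty_interior volume hKint).ne'
    simp only [transportCost, uniformMeasure, lintegral_smul_measure, smul_eq_mul,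
      Function.comp] at hcost
    rw [ENNReal.mul_le_mul_iff_right (ENNReal.inv_ne_zero.2 hK.measure_lt_top.ne)
      (ENNReal.inv_ne_top.2 hK0), hsplit, hsplit] at hcost
    have hcompl' : ∫⁻ y in K \ U, ‖y - T (τ y)‖ₑ ^ 2 = ∫⁻ y in K \ U, ‖y - T y‖ₑ ^ 2 :=
      setLIntegral_congr_fun (hK.measurableSet.diff hUm) fun y hy => by rw [hτout y hy.2]
    have hfin : ∫⁻ y in K \ U, ‖y - T y‖ₑ ^ 2 ≠ ⊤ := by
      obtain ⟨D, hD⟩ := hK.isBounded.exists_norm_le
      refine (setLIntegral_lt_top_of_le_nnreal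
        ((measure_mono sdiff_subset).trans_lt hK.measure_lt_top).ne
        ⟨((D + R).toNNReal) ^ 2, fun y hy => ?_⟩).ne
      rw [← ofReal_norm, ENNReal.coe_pow]
      exact pow_le_pow_left' (ENNReal.ofReal_le_ofReal
        ((norm_sub_le _ _).trans (add_le_add (hD y hy.1) (hR y)))) 2
    rw [hcompl'] at hcost
    have hcost' := (ENNReal.add_le_add_iff_right hfin).1 hcost
    have hconvert : ∀ (q : Euc d) (e : Euc d), ∫⁻ y in closedBall e r, ‖y + q - T y‖ₑ ^ 2
        = ENNReal.ofReal (∫ y in closedBall e r, ‖y + q - T y‖ ^ 2) := fun q e => by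
      rw [ofReal_integral_eq_lintegral_ofReal (integrableOn_sq hT hR q e r)
        (ae_of_all _ fun y => sq_nonneg _)]
      refine lintegral_congr fun y => ?_
      rw [← ofReal_norm, ENNReal.ofReal_pow (norm_nonneg _)]
    have hL : ∀ i, ∫⁻ y in B i, ‖y - T y‖ₑ ^ 2
        = ENNReal.ofReal (∫ y in B i, ‖y + (c r i - c r i) - T y‖ ^ 2) := fun i => by
      rw [← hconvert]
      simp [B]
    have hR' : ∀ i, ∫⁻ y in B i, ‖y - T (τ y)‖ₑ ^ 2
        = ENNReal.ofReal (∫ y in B (σ i), ‖y + (c r i - c r (σ i)) - T y‖ ^ 2) := fun i => by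
      rw [← hconvert, ← hshift i]
      refine setLIntegral_congr_fun (hBm i) fun y hy => ?_
      rw [hτin i y hy]
      congr 2
      simp only [s]
      abel
    simp only [hL, hR'] at hcost'
    rw [← ENNReal.ofReal_sum_of_nonneg (fun i _ => integral_nonneg fun y => sq_nonneg _),
      ← ENNReal.ofReal_sum_of_nonneg (fun i _ => integral_nonneg fun y => sq_nonneg _),
      ENNReal.ofReal_le_ofReal_iff
        (Finset.sum_nonneg fun i _ => integral_nonneg fun y => sq_nonneg _)] at hcost'
    have hball : ∀ i, volume.real (closedBall (c r i) r) =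
        volume.real (closedBall (0 : Euc d) r) := fun i => by
      simp [Measure.real, Measure.addHaar_closedBall_center]
    simp only [setAverage_eq, smul_eq_mul, hball, ← Finset.mul_sum]
    exact mul_le_mul_of_nonneg_left hcost' (inv_nonneg.2 measureReal_nonneg)
  have hlim := le_of_tendsto_of_tendsto
    (tendsto_finsetSum _ fun i _ => tendsto_ball_cost hT hR (p := x i) (hx i).2 (v i) (v i))
    (tendsto_finsetSum _ fun i _ => tendsto_ball_cost hT hR (p := x i) (hx (σ i)).2 (v i) (v (σ i)))
    hineq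
  simp only [norm_sub_sq_real, Finset.sum_add_distrib, Finset.sum_sub_distrib,
    ← Finset.mul_sum] at hlim
  have := Equiv.sum_comp σ (fun i => ‖T (x i)‖ ^ 2)
  linarith

end Vale.Agent.P074
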