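import Mathlib.MeasureTheory.Constructions.BorelSpace.Basic
import Mathlib.MeasureTheory.Measure.Haar.InnerProductSpace
import Mathlib.Analysis.InnerProductSpace.PiL2
import Mathlib.Analysis.SpecialFunctions.Pow.NNReal

/-!
# Quadratic optimal transport from a uniform source: the notions of P074

All quantities are taken in `[0, ∞]`, so that no integrability or junk values enter.
-/

open MeasureTheory
open scoped ENNReal

namespace Vale.Agent.P074

/-- Euclidean space of dimension `d`. -/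
abbrev Euc (d : ℕ) : Type := EuclideanSpace ℝ (Fin d)

variable {d : ℕ}

/-- The uniform probability measure `|K|⁻¹ 1_K dx`. -/
noncomputable def uniformMeasure (K : Set (Euc d)) : Measure (Euc d) :=
  (volume K)⁻¹ • volume.restrict K

/-- The quadratic transport cost `∫ |x - T x|^2 dρ`. -/
noncomputable def transportCost (ρ : Measure (Euc d)) (T : Euc d → Euc d) : ℝ≥0∞ :=
  ∫⁻ x, ‖x - T x‖ₑ ^ 2 ∂ρ

/-- `T` minimises the quadratic cost among Borel maps pushing `ρ` forward to `μ`. -/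
def IsOptimalMap (ρ μ : Measure (Euc d)) (T : Euc d → Euc d) : Prop :=
  Measurable T ∧ ρ.map T = μ ∧
    ∀ S : Euc d → Euc d, Measurable S → ρ.map S = μ → transportCost ρ T ≤ transportCost ρ S

/-- `π` is a coupling of `μ` and `ν`. -/
def IsCoupling (μ ν : Measure (Euc d)) (π : Measure (Euc d × Euc d)) : Prop :=
  π.map Prod.fst = μ ∧ π.map Prod.snd = ν

/-- The Wasserstein distance `W₂`. -/
noncomputable def W2 (μ ν : Measure (Euc d)) : ℝ≥0∞ :=
  (⨅ (π : Measure (Euc d × Euc d)) (_ : IsCoupling μ ν π),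
    ∫⁻ p, ‖p.1 - p.2‖ₑ ^ 2 ∂π) ^ (1 / 2 : ℝ)

/-- The `L²(ρ)` distance of two maps. -/
noncomputable def mapDist (ρ : Measure (Euc d)) (T U : Euc d → Euc d) : ℝ≥0∞ :=
  (∫⁻ x, ‖T x - U x‖ₑ ^ 2 ∂ρ) ^ (1 / 2 : ℝ)

/-- `α` is admissible in dimension `d`: for every compact convex body `K` and every nonempty
compact `Y` the optimal maps from the uniform measure on `K` are `α`-Hölder in `W₂` on the
probability measures supported in `Y`, with one constant `C`. -/
def Admissible (d : ℕ) (α : ℝ) : Prop :=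
  ∀ K : Set (Euc d), IsCompact K → Convex ℝ K → (interior K).Nonempty →
  ∀ Y : Set (Euc d), IsCompact Y → Y.Nonempty →
  ∃ C : ℝ, ∀ μ ν : Measure (Euc d), IsProbabilityMeasure μ → IsProbabilityMeasure ν →
    μ Yᶜ = 0 → ν Yᶜ = 0 →
    ∀ T U : Euc d → Euc d,
      IsOptimalMap (uniformMeasure K) μ T → IsOptimalMap (uniformMeasure K) ν U →
      mapDist (uniformMeasure K) T U ≤ ENNReal.ofReal C * W2 μ ν ^ α

/-- The Wasserstein distance `W₁`. -/
noncomputable def W1 (μ ν : Measure (Euc d)) : ℝ≥0∞ :=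
  ⨅ (π : Measure (Euc d × Euc d)) (_ : IsCoupling μ ν π), ∫⁻ p, ‖p.1 - p.2‖ₑ ∂π

/-- The same as `Admissible`, with `W₁` in place of `W₂`. -/
def AdmissibleW1 (d : ℕ) (β : ℝ) : Prop :=
  ∀ K : Set (Euc d), IsCompact K → Convex ℝ K → (interior K).Nonempty →
  ∀ Y : Set (Euc d), IsCompact Y → Y.Nonempty →
  ∃ C : ℝ, ∀ μ ν : Measure (Euc d), IsProbabilityMeasure μ → IsProbabilityMeasure ν →
    μ Yᶜ = 0 → ν Yᶜ = 0 →
    ∀ T U : Euc d → Euc d,
      IsOptimalMap (uniformMeasure K) μ T → IsOptimalMap (uniformMeasure K) ν U →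
      mapDist (uniformMeasure K) T U ≤ ENNReal.ofReal C * W1 μ ν ^ β

end Vale.Agent.P074
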