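import Vale.Agent.P074.Defs
import Mathlib.MeasureTheory.Measure.Lebesgue.Basic
import Mathlib.MeasureTheory.Integral.Lebesgue.Map
import Mathlib.Analysis.SpecialFunctions.Pow.Continuity

/-!
# Three atom targets whose optimal maps are only one third Hölder stable

The potentials `max |x₀| (w ± (w/2) x₁)` on the cube `[-1,1]^d`: the middle atom has mass of
order `w` and moves by `w`, while the cells move by `w` on which the map jumps by order one.
-/

open MeasureTheory Filter Topology
open scoped ENNReal RealInnerProductSpace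

namespace Vale.Agent.P074

variable {n : ℕ}

/-- The cube. -/
def cube (n : ℕ) : Set (Euc (n + 2)) := {x | ∀ i, x i ∈ Set.Icc (-1 : ℝ) 1}

/-- A box. -/
def box (a b : Fin (n + 2) → ℝ) : Set (Euc (n + 2)) := {x | ∀ i, x i ∈ Set.Icc (a i) (b i)}

/-- unit vector -/
noncomputable def unitVec (i : Fin (n + 2)) : Euc (n + 2) := EuclideanSpace.single i 1

/-- The middle atom. -/
noncomputable def midAtom (n : ℕ) (c : ℝ) : Euc (n + 2) := c • unitVec 1

/-- The map with middle band `|x₀| < w + c x₁`. -/
noncomputable def exMap (w c : ℝ) (x : Euc (n + 2)) : Euc (n + 2) :=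
  if |x 0| < w + c * x 1 then midAtom n c else if 0 ≤ x 0 then unitVec 0 else -unitVec 0

/-- The potential of `exMap`. -/
noncomputable def exPot (w c : ℝ) (x : Euc (n + 2)) : ℝ := max |x 0| (w + c * x 1)

/-- The dual potential on the three atoms. -/
noncomputable def exDual (w : ℝ) (y : Euc (n + 2)) : ℝ := if y 0 = 0 then -w else 0

lemma unitVec_apply (i j : Fin (n + 2)) : unitVec i j = if j = i then (1 : ℝ) else 0 := by
  simp [unitVec]

lemma norm_unitVec (i : Fin (n + 2)) : ‖unitVec i‖ = 1 := by simp [unitVec]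

lemma inner_unitVec (i : Fin (n + 2)) (x : Euc (n + 2)) : ⟪x, unitVec i⟫ = x i := by
  simp [unitVec, EuclideanSpace.inner_single_right]

lemma cube_eq_box : cube n = box (fun _ => -1) (fun _ => 1) := rfl

lemma isCompact_cube : IsCompact (cube n) := by
  have h : cube n = (fun f : Fin (n + 2) → ℝ => (WithLp.toLp 2 f : Euc (n + 2))) ''
      (Set.univ.pi fun _ => Set.Icc (-1 : ℝ) 1) := by
    ext x
    constructor
    · intro hx
      exact ⟨x.ofLp, fun i _ => hx i, by simp⟩
    · rintro ⟨f, hf, rfl⟩ i
      exact hf i trivial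
  rw [h]
  exact (isCompact_univ_pi fun _ => isCompact_Icc).image (PiLp.continuous_toLp 2 _)

lemma convex_cube : Convex ℝ (cube n) := by
  intro x hx y hy a b ha hb hab i
  have := convex_Icc (-1 : ℝ) 1 (hx i) (hy i) ha hb hab
  simpa using this

lemma interior_cube_nonempty : (interior (cube n)).Nonempty := by
  refine ⟨0, mem_interior.2 ⟨Metric.ball 0 1, ?_, Metric.isOpen_ball, by simp⟩⟩
  intro x hx i
  rw [mem_ball_zero_iff] at hx
  have h := PiLp.norm_apply_le x i
  rw [Real.norm_eq_abs] at h
  exact abs_le.1 (le_trans h hx.le)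

lemma volume_box (a b : Fin (n + 2) → ℝ) :
    volume (box a b) = ∏ i, ENNReal.ofReal (b i - a i) := by
  have h : box a b = (fun x : Euc (n + 2) => x.ofLp) ⁻¹' Set.Icc a b := by
    ext x
    simp [box, Pi.le_def, forall_and]
  rw [h, (PiLp.volume_preserving_ofLp (Fin (n + 2))).measure_preimage
    measurableSet_Icc.nullMeasurableSet, Real.volume_Icc_pi]

lemma volume_cube_ne_zero : volume (cube n) ≠ 0 := by
  rw [cube_eq_box, volume_box]
  simp

lemma volume_cube_ne_top : volume (cube n) ≠ ⊤ := isCompact_cube.measure_lt_top.ne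

instance : IsProbabilityMeasure (uniformMeasure (cube n)) := by
  constructor
  simp [uniformMeasure, ENNReal.inv_mul_cancel volume_cube_ne_zero volume_cube_ne_top]

lemma ae_mem_cube : ∀ᵐ x ∂uniformMeasure (cube n), x ∈ cube n := by
  unfold uniformMeasure
  exact Measure.ae_smul_measure (ae_restrict_mem isCompact_cube.measurableSet) _

lemma uniform_box (a b : Fin (n + 2) → ℝ) (hab : ∀ i, -1 ≤ a i ∧ a i ≤ b i ∧ b i ≤ 1) :
    uniformMeasure (cube n) (box a b) = ENNReal.ofReal (∏ i, (b i - a i) / 2) := by
  have hsub : box a b ⊆ cube n := fun x hx i =>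
    ⟨(hab i).1.trans (hx i).1, (hx i).2.trans (hab i).2.2⟩
  simp only [uniformMeasure, Measure.smul_apply, smul_eq_mul]
  rw [Measure.restrict_apply' isCompact_cube.measurableSet,
    Set.inter_eq_self_of_subset_left hsub, volume_box, cube_eq_box, volume_box,
    ← ENNReal.ofReal_prod_of_nonneg (fun i _ => sub_nonneg.2 (hab i).2.1),
    ← ENNReal.ofReal_prod_of_nonneg (fun i _ => by norm_num),
    ← ENNReal.ofReal_inv_of_pos (by simp), ← ENNReal.ofReal_mul (by simp)]
  congr 1
  rw [Finset.prod_div_distrib]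
  field_simp
  norm_num
  ring

lemma measurable_exMap (w c : ℝ) : Measurable (exMap (n := n) w c) := by
  have h : ∀ i : Fin (n + 2), Measurable fun x : Euc (n + 2) => x i := fun i =>
    (PiLp.continuous_apply 2 _ i).measurable
  exact Measurable.ite (measurableSet_lt (continuous_abs.measurable.comp (h 0)) (measurable_const.add (measurable_const.mul (h 1))))
    measurable_const (Measurable.ite (measurableSet_le measurable_const (h 0)) measurable_const
      measurable_const)

lemma midAtom_zero (c : ℝ) : midAtom n c 0 = 0 := by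
  simp [midAtom, unitVec_apply]

lemma inner_midAtom (c : ℝ) (x : Euc (n + 2)) : ⟪x, midAtom n c⟫ = c * x 1 := by
  simp [midAtom, inner_smul_right, inner_unitVec]

lemma exMap_cases (w c : ℝ) (x : Euc (n + 2)) :
    exMap w c x = midAtom n c ∨ exMap w c x = unitVec 0 ∨ exMap w c x = -unitVec 0 := by
  unfold exMap
  split_ifs <;> simp

lemma pot_ge (w c : ℝ) (x y : Euc (n + 2))
    (hy : y = midAtom n c ∨ y = unitVec 0 ∨ y = -unitVec 0) :
    ⟪x, y⟫ - exDual w y ≤ exPot w c x := by
  rcases hy with rfl | rfl | rfl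
  · rw [inner_midAtom, exDual, if_pos (midAtom_zero c)]
    exact le_max_of_le_right (by linarith)
  · rw [inner_unitVec, exDual, if_neg (by simp [unitVec_apply])]
    exact le_max_of_le_left (by linarith [le_abs_self (x 0)])
  · rw [inner_neg_right, inner_unitVec, exDual, if_neg (by simp [unitVec_apply])]
    exact le_max_of_le_left (by linarith [neg_le_abs (x 0)])

lemma pot_eq (w c : ℝ) (x : Euc (n + 2)) :
    ⟪x, exMap w c x⟫ - exDual w (exMap w c x) = exPot w c x := by
  unfold exMap exPot
  split_ifs with h h0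
  · rw [inner_midAtom, exDual, if_pos (midAtom_zero c), max_eq_right h.le]
    ring
  · rw [inner_unitVec, exDual, if_neg (by simp [unitVec_apply]), max_eq_left (not_lt.1 h),
      abs_of_nonneg h0]
    ring
  · rw [inner_neg_right, inner_unitVec, exDual, if_neg (by simp [unitVec_apply]),
      max_eq_left (not_lt.1 h), abs_of_neg (not_le.1 h0)]
    ring

/-- `exMap` is an optimal map: the pair `(exPot, exDual)` is a dual certificate. -/
lemma isOptimal_exMap {w c : ℝ} (hw : 0 ≤ w) :
    IsOptimalMap (uniformMeasure (cube n)) ((uniformMeasure (cube n)).map (exMap w c))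
      (exMap w c) := by
  set ρ := uniformMeasure (cube n)
  refine ⟨measurable_exMap w c, rfl, fun S hS hSmap => ?_⟩
  let A : Set (Euc (n + 2)) := {midAtom n c, unitVec 0, -unitVec 0}
  have hA : MeasurableSet A := (Set.toFinite A).measurableSet
  have hSA : ∀ᵐ x ∂ρ, S x ∈ A := by
    have h1 : ∀ᵐ y ∂ρ.map (exMap w c), y ∈ A := by
      refine (ae_map_iff (measurable_exMap w c).aemeasurable hA).2 (ae_of_all _ fun x => ?_)
      rcases exMap_cases w c x with h | h | h <;> simp only [h] <;>
        first | exact Or.inl rfl | exact Or.inr (Or.inl rfl) | exact Or.inr (Or.inr rfl)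
    rw [← hSmap] at h1
    exact (ae_map_iff hS.aemeasurable hA).1 h1
  let g : Euc (n + 2) → ℝ := fun y => ‖y‖ ^ 2 - 2 * exDual w y
  have hg0 : ∀ y, 0 ≤ g y := fun y => by
    simp only [g, exDual]
    split_ifs <;> nlinarith [norm_nonneg y]
  have hgm : Measurable g := by
    have h : Measurable fun y : Euc (n + 2) => y 0 := (PiLp.continuous_apply 2 _ 0).measurable
    exact (measurable_norm.pow_const 2).sub (measurable_const.mul
      (Measurable.ite (h (measurableSet_singleton 0)) measurable_const measurable_const))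
  let p : Euc (n + 2) → ℝ≥0∞ := fun x => ENNReal.ofReal (2 * exPot w c x)
  have hp0 : ∀ x : Euc (n + 2), 0 ≤ 2 * exPot w c x := fun x => by
    have : |x 0| ≤ exPot w c x := le_max_left _ _
    linarith [abs_nonneg (x 0)]
  have hpm : Measurable p := by
    have h : ∀ i : Fin (n + 2), Measurable fun x : Euc (n + 2) => x i := fun i =>
      (PiLp.continuous_apply 2 _ i).measurable
    exact (measurable_const.mul ((continuous_abs.measurable.comp (h 0)).max (measurable_const.add
      (measurable_const.mul (h 1))))).ennreal_ofReal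
  have hpfin : ∫⁻ x, p x ∂ρ ≠ ⊤ := by
    refine ((lintegral_mono_ae (g := fun _ => ENNReal.ofReal (2 * (1 + w + |c|))) ?_).trans_lt
      ?_).ne
    · filter_upwards [ae_mem_cube] with x hx
      refine ENNReal.ofReal_le_ofReal (mul_le_mul_of_nonneg_left (max_le ?_ ?_) zero_le_two)
      · linarith [abs_le.2 ⟨(hx 0).1, (hx 0).2⟩, abs_nonneg c]
      · have h1 : |x 1| ≤ 1 := abs_le.2 ⟨(hx 1).1, (hx 1).2⟩
        nlinarith [le_abs_self (c * x 1), abs_mul c (x 1), abs_nonneg c]
    · rw [lintegral_const, measure_univ, mul_one]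
      exact ENNReal.ofReal_lt_top
  have key : ∀ U : Euc (n + 2) → Euc (n + 2), ∀ x,
      ‖x - U x‖ ^ 2 + 2 * (⟪x, U x⟫ - exDual w (U x)) = ‖x‖ ^ 2 + g (U x) := fun U x => by
    rw [norm_sub_sq_real]
    simp only [g]
    ring
  have hT : transportCost ρ (exMap w c) + ∫⁻ x, p x ∂ρ
      = ∫⁻ x, ENNReal.ofReal (‖x‖ ^ 2) ∂ρ +
        ∫⁻ y, ENNReal.ofReal (g y) ∂ρ.map (exMap w c) := by
    rw [lintegral_map hgm.ennreal_ofReal (measurable_exMap w c), transportCost,
      ← lintegral_add_right _ hpm, ← lintegral_add_left (by fun_prop)]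
    refine lintegral_congr fun x => ?_
    rw [← ofReal_norm, ← ENNReal.ofReal_pow (norm_nonneg _),
      ← ENNReal.ofReal_add (sq_nonneg _) (hp0 x), ← ENNReal.ofReal_add (sq_nonneg _) (hg0 _),
      ← key (exMap w c) x, pot_eq]
  have hS' : ∫⁻ x, ENNReal.ofReal (‖x‖ ^ 2) ∂ρ + ∫⁻ y, ENNReal.ofReal (g y) ∂ρ.map S
      ≤ transportCost ρ S + ∫⁻ x, p x ∂ρ := by
    rw [lintegral_map hgm.ennreal_ofReal hS, transportCost,
      ← lintegral_add_right _ hpm, ← lintegral_add_left (by fun_prop)]
    refine lintegral_mono_ae ?_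
    filter_upwards [hSA] with x hx
    rw [← ofReal_norm, ← ENNReal.ofReal_pow (norm_nonneg _),
      ← ENNReal.ofReal_add (sq_nonneg _) (hp0 x), ← ENNReal.ofReal_add (sq_nonneg _) (hg0 _),
      ← key S x]
    refine ENNReal.ofReal_le_ofReal ?_
    have := pot_ge w c x (S x) (by simpa [A] using hx)
    linarith
  rw [hSmap, ← hT] at hS'
  exact (ENNReal.add_le_add_iff_right hpfin).1 hS'

/-- Reflection in the coordinate `1`. -/
noncomputable def flipOne (n : ℕ) : Euc (n + 2) ≃ₗᵢ[ℝ] Euc (n + 2) :=
  LinearIsometryEquiv.piLpCongrRight 2 fun i : Fin (n + 2) =>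
    if i = 1 then LinearIsometryEquiv.neg ℝ else LinearIsometryEquiv.refl ℝ ℝ

lemma flipOne_apply (x : Euc (n + 2)) (i : Fin (n + 2)) :
    flipOne n x i = if i = 1 then -x i else x i := by
  simp only [flipOne, LinearIsometryEquiv.piLpCongrRight_apply]
  split_ifs with h <;> simp [h]

lemma flipOne_cube : (flipOne n) ⁻¹' cube n = cube n := by
  ext x
  simp only [Set.mem_preimage, cube, Set.mem_ofPred_eq, flipOne_apply]
  refine forall_congr' fun i => ?_
  split_ifs
  · simp only [Set.mem_Icc]
    constructor <;> intro h <;> constructor <;> linarith [h.1, h.2]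
  · rfl

lemma map_flipOne : (uniformMeasure (cube n)).map (flipOne n) = uniformMeasure (cube n) := by
  have h := (flipOne n).measurePreserving.restrict_preimage
    (isCompact_cube (n := n)).measurableSet
  rw [flipOne_cube] at h
  simp [uniformMeasure, Measure.map_smul, h.map_eq]

lemma flipOne_mid (c : ℝ) : flipOne n (midAtom n c) = midAtom n (-c) := by
  ext i
  by_cases hi : i = 1 <;> simp [flipOne_apply, midAtom, unitVec_apply, hi]

lemma flipOne_unit : flipOne n (unitVec 0) = unitVec 0 := by
  ext i
  by_cases hi : i = 1 <;> simp [flipOne_apply, unitVec_apply, hi]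

lemma exMap_flip (w c : ℝ) (x : Euc (n + 2)) :
    flipOne n (exMap w c x) = exMap w (-c) (flipOne n x) := by
  have h0 : flipOne n x 0 = x 0 := by simp [flipOne_apply]
  have h1 : flipOne n x 1 = -x 1 := by simp [flipOne_apply]
  simp only [exMap, h0, h1, neg_mul_neg, apply_ite (flipOne n), map_neg, flipOne_mid, flipOne_unit]

lemma map_exMap_neg (w c : ℝ) :
    (uniformMeasure (cube n)).map (exMap w (-c)) =
      (uniformMeasure (cube n)).map (fun x => flipOne n (exMap w c x)) := by
  have h : (fun x => flipOne n (exMap w c x)) = exMap w (-c) ∘ flipOne n :=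
    funext (exMap_flip w c)
  rw [h, ← Measure.map_map (measurable_exMap _ _) (flipOne n).continuous.measurable, map_flipOne]

lemma uniform_slab {w : ℝ} (hw : 0 ≤ w) (hw1 : w ≤ 1) :
    uniformMeasure (cube n) {x | |x 0| ≤ w} ≤ ENNReal.ofReal w := by
  have h : ({x : Euc (n + 2) | |x 0| ≤ w} : Set _) ≤ᵐ[uniformMeasure (cube n)]
      box (fun i => if i = 0 then -w else -1) (fun i => if i = 0 then w else 1) := by
    filter_upwards [ae_mem_cube] with x hx hxw i
    by_cases hi : i = 0
    · subst hi
      simpa using abs_le.1 hxw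
    · simpa [hi] using hx i
  refine (measure_mono_ae h).trans ?_
  rw [uniform_box _ _ fun i => ?_]
  · refine ENNReal.ofReal_le_ofReal (le_of_eq ?_)
    rw [Finset.prod_eq_single 0]
    · simp
    · intro i _ hi
      norm_num [hi]
    · simp
  · split_ifs <;> exact ⟨by linarith, by linarith, by linarith⟩

lemma W2_le {w : ℝ} (hw : 0 < w) (hw4 : w ≤ 1 / 4) :
    W2 ((uniformMeasure (cube n)).map (exMap w (w / 2)))
        ((uniformMeasure (cube n)).map (exMap w (-(w / 2))))
      ≤ ENNReal.ofReal (2 * w ^ 3) ^ (1 / 2 : ℝ) := by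
  set ρ := uniformMeasure (cube n)
  set T := exMap (n := n) w (w / 2)
  have hT : Measurable T := measurable_exMap _ _
  have hR : Measurable (flipOne n) := (flipOne n).continuous.measurable
  have hm : Measurable fun x => (T x, flipOne n (T x)) := hT.prodMk (hR.comp hT)
  refine ENNReal.rpow_le_rpow ?_ (by norm_num)
  have hπ : IsCoupling (ρ.map T) (ρ.map (exMap w (-(w / 2))))
      (ρ.map fun x => (T x, flipOne n (T x))) := by
    constructor
    · rw [Measure.map_map measurable_fst hm]
      rfl
    · rw [Measure.map_map measurable_snd hm, map_exMap_neg]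
      rfl
  refine (iInf₂_le (ρ.map fun x => (T x, flipOne n (T x))) hπ).trans ?_
  rw [lintegral_map (by fun_prop) hm]
  calc ∫⁻ x, ‖T x - flipOne n (T x)‖ₑ ^ 2 ∂ρ
      ≤ ∫⁻ x, {x | |x 0| ≤ 2 * w}.indicator (fun _ => ENNReal.ofReal (w ^ 2)) x ∂ρ := by
        refine lintegral_mono_ae ?_
        filter_upwards [ae_mem_cube] with x hx
        rw [← ofReal_norm, ← ENNReal.ofReal_pow (norm_nonneg _)]
        simp only [T, exMap]
        split_ifs with h h0
        · have hx2 : |x 0| ≤ 2 * w := by nlinarith [(hx 1).2]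
          rw [Set.indicator_of_mem (s := {x : Euc (n + 2) | |x 0| ≤ 2 * w}) hx2]
          refine ENNReal.ofReal_le_ofReal (le_of_eq ?_)
          have : midAtom n (w / 2) - flipOne n (midAtom n (w / 2)) = w • unitVec 1 := by
            rw [flipOne_mid, midAtom, midAtom, ← sub_smul]
            congr 1
            ring
          rw [this, norm_smul, norm_unitVec, mul_one, Real.norm_eq_abs, sq_abs]
        · simp [flipOne_unit]
        · simp [flipOne_unit]
    _ = ENNReal.ofReal (w ^ 2) * ρ {x | |x 0| ≤ 2 * w} := by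
        refine lintegral_indicator_const ?_ _
        exact measurableSet_le (continuous_abs.comp (PiLp.continuous_apply 2 _ 0)).measurable measurable_const
    _ ≤ ENNReal.ofReal (w ^ 2) * ENNReal.ofReal (2 * w) := by
        gcongr
        exact uniform_slab (by linarith) (by linarith)
    _ = ENNReal.ofReal (2 * w ^ 3) := by
        rw [← ENNReal.ofReal_mul (sq_nonneg w)]
        congr 1
        ring

lemma le_mapDist {w : ℝ} (hw : 0 < w) (hw4 : w ≤ 1 / 4) :
    ENNReal.ofReal (w / 64) ^ (1 / 2 : ℝ) ≤
      mapDist (uniformMeasure (cube n)) (exMap w (w / 2)) (exMap w (-(w / 2))) := by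
  set ρ := uniformMeasure (cube n)
  refine ENNReal.rpow_le_rpow ?_ (by norm_num)
  let a : Fin (n + 2) → ℝ := fun i => if i = 0 then w else if i = 1 then 3 / 4 else -1
  let b : Fin (n + 2) → ℝ := fun i => if i = 0 then 5 / 4 * w else 1
  have hab : ∀ i, -1 ≤ a i ∧ a i ≤ b i ∧ b i ≤ 1 := fun i => by
    simp only [a, b]
    split_ifs <;> exact ⟨by linarith, by linarith, by linarith⟩
  have hmeas : ρ (box a b) = ENNReal.ofReal (w / 64) := by
    rw [uniform_box a b hab, Fin.prod_univ_succ, Fin.prod_univ_succ]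
    congr 1
    rw [Finset.prod_eq_one]
    · have h01 : (1 : Fin (n + 2)) ≠ 0 := by simp
      simp only [Fin.succ_zero_eq_one, a, b, if_neg h01, if_true]
      ring
    · intro i _
      have h0 : i.succ.succ ≠ (0 : Fin (n + 2)) := Fin.succ_ne_zero _
      have h1 : i.succ.succ ≠ (1 : Fin (n + 2)) := fun h =>
        Fin.succ_ne_zero i (Fin.succ_injective _ (h.trans Fin.succ_zero_eq_one.symm))
      simp only [a, b, if_neg h0, if_neg h1]
      norm_num
  have hsub : ∀ x ∈ box a b,
      ENNReal.ofReal 1 ≤ ‖exMap w (w / 2) x - exMap w (-(w / 2)) x‖ₑ ^ 2 := by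
    intro x hx
    have h0 := hx 0
    have h1 := hx 1
    simp [a, b] at h0 h1
    have hpos : |x 0| < w + w / 2 * x 1 := by
      rw [abs_of_pos (by linarith)]
      nlinarith
    have hneg : ¬|x 0| < w + -(w / 2) * x 1 := by
      rw [abs_of_pos (by linarith), not_lt]
      nlinarith
    rw [← ofReal_norm, ← ENNReal.ofReal_pow (norm_nonneg _)]
    refine ENNReal.ofReal_le_ofReal ?_
    simp only [exMap]
    rw [if_pos hpos, if_neg hneg, if_pos (by linarith)]
    have hle := PiLp.norm_apply_le (midAtom n (w / 2) - unitVec 0) (0 : Fin (n + 2))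
    simp [midAtom_zero, unitVec_apply] at hle
    exact one_le_pow₀ hle
  calc ENNReal.ofReal (w / 64)
      = ENNReal.ofReal 1 * ρ (box a b) := by simp [hmeas]
    _ = ∫⁻ x, (box a b).indicator (fun _ => ENNReal.ofReal 1) x ∂ρ := by
        rw [lintegral_indicator_const]
        have : box a b = ⋂ i, (fun x : Euc (n + 2) => x i) ⁻¹' Set.Icc (a i) (b i) := by
          ext x
          simp [box]
        rw [this]
        exact MeasurableSet.iInter fun i =>
          (PiLp.continuous_apply 2 _ i).measurable measurableSet_Icc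
    _ ≤ _ := by
        exact lintegral_mono (Set.indicator_le' hsub fun x _ => zero_le)

end Vale.Agent.P074
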