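import Vale.Agent.P074.Example

/-!
# Exponents above one third in `W₂`, and above one quarter in `W₁`, are not admissible
-/

open MeasureTheory Filter Topology
open scoped ENNReal

namespace Vale.Agent.P074

variable {n : ℕ}

lemma W1_le {w : ℝ} (hw : 0 < w) (hw4 : w ≤ 1 / 4) :
    W1 ((uniformMeasure (cube n)).map (exMap w (w / 2)))
        ((uniformMeasure (cube n)).map (exMap w (-(w / 2))))
      ≤ ENNReal.ofReal (2 * w ^ 2) := by
  set ρ := uniformMeasure (cube n)
  set T := exMap (n := n) w (w / 2)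
  have hT : Measurable T := measurable_exMap _ _
  have hR : Measurable (flipOne n) := (flipOne n).continuous.measurable
  have hm : Measurable fun x => (T x, flipOne n (T x)) := hT.prodMk (hR.comp hT)
  have hπ : IsCoupling (ρ.map T) (ρ.map (exMap w (-(w / 2))))
      (ρ.map fun x => (T x, flipOne n (T x))) := by
    constructor
    · rw [Measure.map_map measurable_fst hm]
      rfl
    · rw [Measure.map_map measurable_snd hm, map_exMap_neg]
      rfl
  refine (iInf₂_le (ρ.map fun x => (T x, flipOne n (T x))) hπ).trans ?_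
  rw [lintegral_map (by fun_prop) hm]
  calc ∫⁻ x, ‖T x - flipOne n (T x)‖ₑ ∂ρ
      ≤ ∫⁻ x, {x | |x 0| ≤ 2 * w}.indicator (fun _ => ENNReal.ofReal w) x ∂ρ := by
        refine lintegral_mono_ae ?_
        filter_upwards [ae_mem_cube] with x hx
        rw [← ofReal_norm]
        simp only [T, exMap]
        split_ifs with h h0
        · have hx2 : |x 0| ≤ 2 * w := by nlinarith [(hx 1).2]
          rw [Set.indicator_of_mem (s := {x : Euc (n + 2) | |x 0| ≤ 2 * w}) hx2]
          refine ENNReal.ofReal_le_ofReal (le_of_eq ?_)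
          have : midAtom n (w / 2) - flipOne n (midAtom n (w / 2)) = w • unitVec 1 := by
            rw [flipOne_mid, midAtom, midAtom, ← sub_smul]
            congr 1
            ring
          rw [this, norm_smul, norm_unitVec, mul_one, Real.norm_eq_abs, abs_of_pos hw]
        · simp [flipOne_unit]
        · simp [flipOne_unit]
    _ = ENNReal.ofReal w * ρ {x | |x 0| ≤ 2 * w} := by
        refine lintegral_indicator_const ?_ _
        exact measurableSet_le (continuous_abs.comp (PiLp.continuous_apply 2 _ 0)).measurable measurable_const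
    _ ≤ ENNReal.ofReal w * ENNReal.ofReal (2 * w) := by
        gcongr
        exact uniform_slab (by linarith) (by linarith)
    _ = ENNReal.ofReal (2 * w ^ 2) := by
        rw [← ENNReal.ofReal_mul hw.le]
        congr 1
        ring

theorem not_admissible_above_third : ∀ d : ℕ, 2 ≤ d → ∀ α : ℝ, 1 / 3 < α → ¬ Admissible d α := by
  intro d hd α hα hadm
  obtain ⟨n, rfl⟩ : ∃ n, d = n + 2 := ⟨d - 2, by omega⟩
  obtain ⟨C, hC⟩ := hadm (cube n) isCompact_cube convex_cube interior_cube_nonempty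
    (cube n) isCompact_cube ⟨0, fun i => by simp⟩
  set C' : ℝ := max C 0
  set e : ℝ := (3 * α - 1) / 2
  have he : 0 < e := by simp only [e]; linarith
  have hev : ∀ᶠ w : ℝ in 𝓝[>] 0,
      C' * (2 : ℝ) ^ (α / 2) * w ^ e < (1 / 64 : ℝ) ^ (1 / 2 : ℝ) := by
    have h : Tendsto (fun w : ℝ => C' * (2 : ℝ) ^ (α / 2) * w ^ e) (𝓝[>] 0) (𝓝 0) := by
      have h1 := ((Real.continuousAt_rpow_const (0 : ℝ) e (Or.inr he.le)).tendsto.mono_left
        (nhdsWithin_le_nhds (s := Set.Ioi (0 : ℝ)))).const_mul (C' * (2 : ℝ) ^ (α / 2))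
      simpa [Real.zero_rpow he.ne'] using h1
    exact h.eventually_lt_const (by positivity)
  have hq : ∀ᶠ w : ℝ in 𝓝[>] 0, w ≤ 1 / 4 :=
    nhdsWithin_le_nhds (eventually_le_nhds (by norm_num))
  obtain ⟨w, hwlt, hw4, hw⟩ := (hev.and (hq.and self_mem_nhdsWithin)).exists
  replace hw : 0 < w := hw
  have supp : ∀ c : ℝ, |c| ≤ 1 →
      (uniformMeasure (cube n)).map (exMap w c) (cube n)ᶜ = 0 := fun c hc => by
    rw [Measure.map_apply (measurable_exMap w c) isCompact_cube.measurableSet.compl]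
    convert measure_empty (μ := uniformMeasure (cube n))
    ext x
    simp only [Set.mem_preimage, Set.mem_compl_iff, Set.mem_empty_iff_false, iff_false, not_not]
    intro i
    rw [Set.mem_Icc, ← abs_le]
    rcases exMap_cases w c x with h | h | h <;> rw [h]
    · by_cases hi : i = 1 <;> simp [midAtom, unitVec_apply, hi, hc]
    · by_cases hi : i = 0 <;> simp [unitVec_apply, hi]
    · by_cases hi : i = 0 <;> simp [unitVec_apply, hi]
  have key := hC _ _
    (Measure.isProbabilityMeasure_map (measurable_exMap w (w / 2)).aemeasurable)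
    (Measure.isProbabilityMeasure_map (measurable_exMap w (-(w / 2))).aemeasurable)
    (supp _ (by rw [abs_le]; constructor <;> linarith))
    (supp _ (by rw [abs_le]; constructor <;> linarith))
    _ _ (isOptimal_exMap hw.le) (isOptimal_exMap hw.le)
  have h2 : ENNReal.ofReal ((w / 64) ^ (1 / 2 : ℝ))
      ≤ ENNReal.ofReal (C' * ((2 * w ^ 3) ^ (1 / 2 : ℝ)) ^ α) := by
    rw [← ENNReal.ofReal_rpow_of_nonneg (by positivity) (by norm_num),
      ENNReal.ofReal_mul (le_max_right _ _),
      ← ENNReal.ofReal_rpow_of_nonneg (by positivity) (by linarith),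
      ← ENNReal.ofReal_rpow_of_nonneg (by positivity) (by norm_num)]
    refine (le_mapDist hw hw4).trans (key.trans ?_)
    exact mul_le_mul' (ENNReal.ofReal_le_ofReal (le_max_left _ _))
      (ENNReal.rpow_le_rpow (W2_le hw hw4) (by linarith))
  rw [ENNReal.ofReal_le_ofReal_iff (by positivity)] at h2
  have hl : (w / 64) ^ (1 / 2 : ℝ) = (1 / 64 : ℝ) ^ (1 / 2 : ℝ) * w ^ (1 / 2 : ℝ) := by
    rw [← Real.mul_rpow (by norm_num) hw.le]
    ring_nf
  have hr : ((2 * w ^ 3) ^ (1 / 2 : ℝ)) ^ α = (2 : ℝ) ^ (α / 2) * w ^ e * w ^ (1 / 2 : ℝ) := by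
    rw [← Real.rpow_mul (by positivity), Real.mul_rpow (by norm_num) (by positivity),
      mul_assoc, ← Real.rpow_add hw, ← Real.rpow_natCast, ← Real.rpow_mul hw.le]
    congr 1
    · ring_nf
    · congr 1
      simp only [e]
      push_cast
      ring
  rw [hl, hr, ← mul_assoc, ← mul_assoc] at h2
  exact not_le.2 hwlt (le_of_mul_le_mul_right h2 (Real.rpow_pos_of_pos hw _))


theorem not_admissibleW1_above_quarter : ∀ d : ℕ, 2 ≤ d → ∀ α : ℝ, 1 / 4 < α → ¬ AdmissibleW1 d α := by
  intro d hd α hα hadm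
  obtain ⟨n, rfl⟩ : ∃ n, d = n + 2 := ⟨d - 2, by omega⟩
  obtain ⟨C, hC⟩ := hadm (cube n) isCompact_cube convex_cube interior_cube_nonempty
    (cube n) isCompact_cube ⟨0, fun i => by simp⟩
  set C' : ℝ := max C 0
  set e : ℝ := 2 * α - 1 / 2
  have he : 0 < e := by simp only [e]; linarith
  have hev : ∀ᶠ w : ℝ in 𝓝[>] 0,
      C' * (2 : ℝ) ^ α * w ^ e < (1 / 64 : ℝ) ^ (1 / 2 : ℝ) := by
    have h : Tendsto (fun w : ℝ => C' * (2 : ℝ) ^ α * w ^ e) (𝓝[>] 0) (𝓝 0) := by
      have h1 := ((Real.continuousAt_rpow_const (0 : ℝ) e (Or.inr he.le)).tendsto.mono_left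
        (nhdsWithin_le_nhds (s := Set.Ioi (0 : ℝ)))).const_mul (C' * (2 : ℝ) ^ α)
      simpa [Real.zero_rpow he.ne'] using h1
    exact h.eventually_lt_const (by positivity)
  have hq : ∀ᶠ w : ℝ in 𝓝[>] 0, w ≤ 1 / 4 :=
    nhdsWithin_le_nhds (eventually_le_nhds (by norm_num))
  obtain ⟨w, hwlt, hw4, hw⟩ := (hev.and (hq.and self_mem_nhdsWithin)).exists
  replace hw : 0 < w := hw
  have supp : ∀ c : ℝ, |c| ≤ 1 →
      (uniformMeasure (cube n)).map (exMap w c) (cube n)ᶜ = 0 := fun c hc => by
    rw [Measure.map_apply (measurable_exMap w c) isCompact_cube.measurableSet.compl]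
    convert measure_empty (μ := uniformMeasure (cube n))
    ext x
    simp only [Set.mem_preimage, Set.mem_compl_iff, Set.mem_empty_iff_false, iff_false, not_not]
    intro i
    rw [Set.mem_Icc, ← abs_le]
    rcases exMap_cases w c x with h | h | h <;> rw [h]
    · by_cases hi : i = 1 <;> simp [midAtom, unitVec_apply, hi, hc]
    · by_cases hi : i = 0 <;> simp [unitVec_apply, hi]
    · by_cases hi : i = 0 <;> simp [unitVec_apply, hi]
  have key := hC _ _
    (Measure.isProbabilityMeasure_map (measurable_exMap w (w / 2)).aemeasurable)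
    (Measure.isProbabilityMeasure_map (measurable_exMap w (-(w / 2))).aemeasurable)
    (supp _ (by rw [abs_le]; constructor <;> linarith))
    (supp _ (by rw [abs_le]; constructor <;> linarith))
    _ _ (isOptimal_exMap hw.le) (isOptimal_exMap hw.le)
  have h2 : ENNReal.ofReal ((w / 64) ^ (1 / 2 : ℝ))
      ≤ ENNReal.ofReal (C' * (2 * w ^ 2) ^ α) := by
    rw [← ENNReal.ofReal_rpow_of_nonneg (by positivity) (by norm_num),
      ENNReal.ofReal_mul (le_max_right _ _),
      ← ENNReal.ofReal_rpow_of_nonneg (by positivity) (by linarith)]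
    refine (le_mapDist hw hw4).trans (key.trans ?_)
    exact mul_le_mul' (ENNReal.ofReal_le_ofReal (le_max_left _ _))
      (ENNReal.rpow_le_rpow (W1_le hw hw4) (by linarith))
  rw [ENNReal.ofReal_le_ofReal_iff (by positivity)] at h2
  have hl : (w / 64) ^ (1 / 2 : ℝ) = (1 / 64 : ℝ) ^ (1 / 2 : ℝ) * w ^ (1 / 2 : ℝ) := by
    rw [← Real.mul_rpow (by norm_num) hw.le]
    ring_nf
  have hr : (2 * w ^ 2) ^ α = (2 : ℝ) ^ α * w ^ e * w ^ (1 / 2 : ℝ) := by
    rw [Real.mul_rpow (by norm_num) (by positivity), mul_assoc, ← Real.rpow_add hw,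
      ← Real.rpow_natCast, ← Real.rpow_mul hw.le]
    congr 2
    simp only [e]
    push_cast
    ring
  rw [hl, hr, ← mul_assoc, ← mul_assoc] at h2
  exact not_le.2 hwlt (le_of_mul_le_mul_right h2 (Real.rpow_pos_of_pos hw _))


end Vale.Agent.P074
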