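import Vale.Agent.P074.Defs
import Mathlib.Analysis.Convex.Function
import Mathlib.GroupTheory.Perm.Fin
import Mathlib.Algebra.BigOperators.Fin

/-!
# The Rockafellar potential of a cyclically monotone map
-/

open Set
open scoped RealInnerProductSpace

namespace Vale.Agent.P074

variable {d : ℕ}

/-- The affine function of a chain `c 0, …, c n`. -/
noncomputable def chainVal (T : Euc d → Euc d) (n : ℕ) (c : ℕ → Euc d) (x : Euc d) : ℝ :=
  (∑ i ∈ Finset.range n, ⟪T (c i), c (i + 1) - c i⟫) + ⟪T (c n), x - c n⟫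

theorem exists_potential {A : Set (Euc d)} {a : Euc d} (ha : a ∈ A) {T : Euc d → Euc d} {R : ℝ}
    (hR : ∀ x, ‖T x‖ ≤ R)
    (hcm : ∀ (n : ℕ) (x : Fin n → Euc d), (∀ i, x i ∈ A) → ∀ σ : Equiv.Perm (Fin n),
        ∑ i, ⟪x i, T (x (σ i))⟫ ≤ ∑ i, ⟪x i, T (x i)⟫) :
    ∃ φ : Euc d → ℝ, (∀ x y, |φ x - φ y| ≤ R * ‖x - y‖) ∧ ConvexOn ℝ univ φ ∧
      ∀ z ∈ A, ∀ x, φ z + ⟪T z, x - z⟫ ≤ φ x := by
  let V : Euc d → Set ℝ := fun x =>
    {r | ∃ n c, (∀ i, c i ∈ A) ∧ c 0 = a ∧ r = chainVal T n c x}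
  have hne : ∀ x, (V x).Nonempty := fun x =>
    ⟨_, 0, fun _ => a, fun _ => ha, rfl, rfl⟩
  have hlip : ∀ n c x y, chainVal T n c x ≤ chainVal T n c y + R * ‖x - y‖ := fun n c x y => by
    have h : ⟪T (c n), x - y⟫ ≤ R * ‖x - y‖ :=
      (real_inner_le_norm _ _).trans (mul_le_mul_of_nonneg_right (hR _) (norm_nonneg _))
    simp only [chainVal, inner_sub_right] at h ⊢
    linarith
  have hclosed : ∀ n c, (∀ i, c i ∈ A) → c 0 = a → chainVal T n c a ≤ 0 := fun n c hc h0 => by
    have h := hcm (n + 1) (fun i => c i) (fun i => hc i) (finRotate (n + 1)).symm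
    rw [← Equiv.sum_comp (finRotate (n + 1))
      (fun i : Fin (n + 1) => ⟪c i, T (c ((finRotate (n + 1)).symm i : Fin (n + 1)))⟫)] at h
    simp only [Equiv.symm_apply_apply] at h
    rw [Fin.sum_univ_castSucc, Fin.sum_univ_castSucc] at h
    simp only [finRotate_succ_apply, Fin.coeSucc_eq_succ, Fin.val_succ, Fin.last_add_one,
      Fin.val_zero, Fin.val_last, Fin.val_castSucc, h0] at h
    rw [Fin.sum_univ_eq_sum_range (fun i => ⟪c (i + 1), T (c i)⟫),
      Fin.sum_univ_eq_sum_range (fun i => ⟪c i, T (c i)⟫)] at h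
    simp only [chainVal, inner_sub_right, Finset.sum_sub_distrib]
    simp only [real_inner_comm] at h ⊢
    linarith
  have hbdd : ∀ x, BddAbove (V x) := fun x => by
    refine ⟨R * ‖x - a‖, ?_⟩
    rintro r ⟨n, c, hc, h0, rfl⟩
    linarith [hlip n c x a, hclosed n c hc h0]
  let φ : Euc d → ℝ := fun x => sSup (V x)
  have hle : ∀ n c, (∀ i, c i ∈ A) → c 0 = a → ∀ x, chainVal T n c x ≤ φ x := fun n c hc h0 x =>
    le_csSup (hbdd x) ⟨n, c, hc, h0, rfl⟩
  have hup : ∀ x b, (∀ n c, (∀ i, c i ∈ A) → c 0 = a → chainVal T n c x ≤ b) → φ x ≤ b :=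
    fun x b h => csSup_le (hne x) (by rintro r ⟨n, c, hc, h0, rfl⟩; exact h n c hc h0)
  refine ⟨φ, fun x y => ?_, ⟨convex_univ, fun x _ y _ s t hs ht hst => ?_⟩, fun z hz x => ?_⟩
  · have : ∀ p q, φ p ≤ φ q + R * ‖p - q‖ := fun p q =>
      hup p _ fun n c hc h0 => by linarith [hlip n c p q, hle n c hc h0 q]
    rw [abs_le]
    constructor
    · have h := this y x
      rw [norm_sub_rev] at h
      linarith
    · linarith [this x y]
  · refine hup _ _ fun n c hc h0 => ?_
    have hx := mul_le_mul_of_nonneg_left (hle n c hc h0 x) hs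
    have hy := mul_le_mul_of_nonneg_left (hle n c hc h0 y) ht
    obtain rfl : t = 1 - s := by linarith
    simp only [chainVal, inner_sub_right, inner_add_right, inner_smul_right, smul_eq_mul] at hx hy ⊢
    linear_combination hx + hy
  · suffices h : φ z ≤ φ x - ⟪T z, x - z⟫ by linarith
    refine hup z _ fun n c hc h0 => ?_
    let c' : ℕ → Euc d := fun i => if i ≤ n then c i else z
    have hc' : ∀ i, c' i ∈ A := fun i => by
      simp only [c']
      split_ifs
      · exact hc i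
      · exact hz
    have h := hle (n + 1) c' hc' (by simp [c', h0]) x
    have hs : ∑ i ∈ Finset.range n, ⟪T (c' i), c' (i + 1) - c' i⟫
        = ∑ i ∈ Finset.range n, ⟪T (c i), c (i + 1) - c i⟫ :=
      Finset.sum_congr rfl fun i hi => by
        rw [Finset.mem_range] at hi
        simp only [c', if_pos hi.le, if_pos (Nat.succ_le_of_lt hi)]
    simp only [chainVal, Finset.sum_range_succ, hs] at h ⊢
    simp only [c', le_refl, if_true, if_neg (Nat.not_succ_le_self n)] at h
    linarith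

end Vale.Agent.P074
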