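import Vale.Agent.P074.Defs
import Mathlib.MeasureTheory.Measure.Lebesgue.EqHaar
import Mathlib.MeasureTheory.Integral.Bochner.Set
import Mathlib.MeasureTheory.Function.LocallyIntegrable
import Mathlib.Analysis.Convex.Function

/-!
# The integrated second difference of a Lipschitz function on a convex body is quadratic
-/

open MeasureTheory Metric Set
open scoped ENNReal

namespace Vale.Agent.P074

variable {d : ℕ}

lemma one_add_pow_sub_one_le {s S : ℝ} (hs : 0 ≤ s) (hsS : s ≤ S) (n : ℕ) :
    (1 + s) ^ n - 1 ≤ n * (1 + S) ^ n * s := by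
  induction n with
  | zero => simp
  | succ n ih =>
    have h1 : (1 + s) ^ n ≤ (1 + S) ^ n := pow_le_pow_left₀ (by linarith) (by linarith) n
    have h2 : (1 : ℝ) ≤ (1 + S) ^ n := one_le_pow₀ (by linarith)
    rw [pow_succ, pow_succ]
    push_cast
    have h3 : ((n : ℝ) + 1) * (1 + S) ^ n * s ≤ ((n : ℝ) + 1) * ((1 + S) ^ n * (1 + S)) * s := by
      refine mul_le_mul_of_nonneg_right (mul_le_mul_of_nonneg_left ?_ (by positivity)) hs
      nlinarith
    nlinarith

theorem exists_secondDiff_bound {K : Set (Euc d)} (hK : IsCompact K) (hconv : Convex ℝ K)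
    (hKint : (interior K).Nonempty) (M : ℝ) :
    ∃ C : ℝ, 0 ≤ C ∧ ∀ (φ : Euc d → ℝ) (L : ℝ), Continuous φ → 0 ≤ L →
      (∀ x y, |φ x - φ y| ≤ L * ‖x - y‖) → ∀ t : Euc d, ‖t‖ ≤ M →
      ∫ x in K, (φ (x + t) + φ (x - t) - 2 * φ x) ≤ C * L * ‖t‖ ^ 2 := by
  obtain ⟨x₀, hx₀⟩ := hKint
  obtain ⟨r, hr, hball⟩ := nhds_basis_closedBall.mem_iff.1 (mem_interior_iff_mem_nhds.1 hx₀)
  set S : ℝ := |M| / r
  set Q : ℝ := d * (1 + S) ^ d * volume.real K / r
  refine ⟨2 * Q, by positivity, fun φ L hφ hL hlip t htM => ?_⟩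
  set K' : Set (Euc d) := (fun x => x + t) ⁻¹' K
  set δ : Euc d → ℝ := fun x => φ (x + t) - φ x
  have hcd : Continuous δ := (hφ.comp (continuous_add_const t)).sub hφ
  have hK' : IsCompact K' := (Homeomorph.addRight t).isCompact_preimage.2 hK
  have hKm := hK.measurableSet
  have hK'm := hK'.measurableSet
  have hiK : IntegrableOn δ K := hcd.continuousOn.integrableOn_compact hK
  have hiK' : IntegrableOn δ K' := hcd.continuousOn.integrableOn_compact hK'
  have hδ : ∀ x, |δ x| ≤ L * ‖t‖ := fun x => by
    simpa [δ] using hlip (x + t) x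
  have hvolK' : volume.real K' = volume.real K := by
    simp [Measure.real, K', measure_preimage_add_right]
  set s : ℝ := ‖t‖ / r
  have hs : 0 ≤ s := by positivity
  set H : Set (Euc d) := AffineMap.homothety x₀ (1 + s) '' K
  have hKH : K ⊆ H := fun k hk => by
    refine ⟨x₀ + (1 + s)⁻¹ • (k - x₀), ?_, ?_⟩
    · have := hconv.add_smul_sub_mem (interior_subset hx₀) hk
        (t := (1 + s)⁻¹) ⟨by positivity, inv_le_one_of_one_le₀ (by linarith)⟩
      exact this
    · rw [AffineMap.homothety_apply, vsub_eq_sub, vadd_eq_add, add_sub_cancel_left, smul_smul,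
        mul_inv_cancel₀ (by linarith : (1 + s) ≠ 0), one_smul, sub_add_cancel]
  have hK'H : K' ⊆ H := fun x hx => by
    rcases eq_or_ne t 0 with rfl | ht
    · exact hKH (by simpa [K'] using hx)
    have hs' : 0 < s := by simp only [s]; positivity
    have hb : x₀ - s⁻¹ • t ∈ K := by
      refine hball ?_
      rw [mem_closedBall_iff_norm, sub_sub_cancel_left, norm_neg, norm_smul, Real.norm_eq_abs,
        abs_of_pos (inv_pos.2 hs')]
      simp only [s, inv_div]
      rw [div_mul_cancel₀ _ (norm_ne_zero_iff.2 ht)]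
    refine ⟨(1 / (1 + s)) • (x + t) + (s / (1 + s)) • (x₀ - s⁻¹ • t),
      hconv hx hb (by positivity) (by positivity) (by field_simp), ?_⟩
    rw [AffineMap.homothety_apply, vsub_eq_sub, vadd_eq_add]
    match_scalars <;> field_simp <;> ring
  have hHc : IsCompact H := hK.image (AffineMap.homothety_continuous x₀ (1 + s))
  have hHvol : volume.real H - volume.real K ≤ Q * ‖t‖ := by
    have hH : volume.real H = (1 + s) ^ d * volume.real K := by
      simp only [Measure.real, H, Measure.addHaar_image_homothety, finrank_euclideanSpace_fin,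
        ENNReal.toReal_mul, abs_pow, abs_of_nonneg (by linarith : (0 : ℝ) ≤ 1 + s),
        ENNReal.toReal_ofReal (pow_nonneg (by linarith : (0 : ℝ) ≤ 1 + s) d)]
    have hsS : s ≤ S := by
      simp only [s, S]
      exact div_le_div_of_nonneg_right (htM.trans (le_abs_self M)) hr.le
    calc volume.real H - volume.real K = ((1 + s) ^ d - 1) * volume.real K := by rw [hH]; ring
      _ ≤ d * (1 + S) ^ d * s * volume.real K :=
          mul_le_mul_of_nonneg_right (one_add_pow_sub_one_le hs hsS d) measureReal_nonneg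
      _ = Q * ‖t‖ := by simp only [Q, s]; ring
  have hd1 : volume.real (K \ K') ≤ Q * ‖t‖ := by
    refine le_trans ?_ hHvol
    calc volume.real (K \ K') ≤ volume.real (H \ K') :=
          measureReal_mono (sdiff_subset_sdiff_left hKH)
            ((measure_mono sdiff_subset).trans_lt hHc.measure_lt_top).ne
      _ = volume.real H - volume.real K := by
          rw [measureReal_sdiff hK'H hK'm hHc.measure_lt_top.ne, hvolK']
  have hd2 : volume.real (K' \ K) ≤ Q * ‖t‖ := by
    refine le_trans ?_ hHvol
    calc volume.real (K' \ K) ≤ volume.real (H \ K) :=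
          measureReal_mono (sdiff_subset_sdiff_left hK'H)
            ((measure_mono sdiff_subset).trans_lt hHc.measure_lt_top).ne
      _ = volume.real H - volume.real K := by
          rw [measureReal_sdiff hKH hKm hHc.measure_lt_top.ne]
  have hb : ∀ D : Set (Euc d), volume D < ⊤ → volume.real D ≤ Q * ‖t‖ →
      |∫ x in D, δ x| ≤ L * ‖t‖ * (Q * ‖t‖) := fun D hD hDQ => by
    rw [← Real.norm_eq_abs]
    refine (norm_setIntegral_le_of_norm_le_const hD fun x _ => ?_).trans
      (mul_le_mul_of_nonneg_left hDQ (by positivity))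
    rw [Real.norm_eq_abs]
    exact hδ x
  have hshift : ∫ x in K, δ (x - t) = ∫ x in K', δ x := by
    have h := (measurePreserving_add_right (volume : Measure (Euc d)) t).setIntegral_preimage_emb
      (measurableEmbedding_addRight t) (fun x => δ (x - t)) K
    simpa [K'] using h.symm
  have hmain : ∫ x in K, (φ (x + t) + φ (x - t) - 2 * φ x)
      = (∫ x in K, δ x) - ∫ x in K', δ x := by
    have hi : IntegrableOn (fun x => δ (x - t)) K :=
      (hcd.comp (continuous_sub_right t)).continuousOn.integrableOn_compact hK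
    rw [← hshift, ← integral_sub hiK hi]
    refine integral_congr_ae (ae_of_all _ fun x => ?_)
    simp only [δ, sub_add_cancel]
    ring
  rw [hmain, ← integral_inter_add_sdiff hK'm hiK, ← integral_inter_add_sdiff hKm hiK',
    inter_comm K' K]
  have e1 := abs_le.1 (hb _ ((measure_mono sdiff_subset).trans_lt hK.measure_lt_top) hd1)
  have e2 := abs_le.1 (hb _ ((measure_mono sdiff_subset).trans_lt hK'.measure_lt_top) hd2)
  nlinarith

end Vale.Agent.P074
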