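import Vale.Agent.P074.Cyclic
import Vale.Agent.P074.Potential
import Vale.Agent.P074.SecondDiff
import Mathlib.Analysis.Convex.Jensen
import Mathlib.Analysis.SpecialFunctions.Sqrt
import Mathlib.MeasureTheory.Integral.MeanInequalities

/-!
# The stability exponent one quarter

For a potential `φ` of `T` and its dual `ψ`, testing the duality gap of `U` at the point
`x + z`, `z = λ (U x - T x)`, gives `λ |U x - T x|²` up to a Bregman term, whose integral over
the convex body is of order `λ²`. Hence `λ ‖U - T‖² ≤ C W₁ + C λ²`.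
-/

open MeasureTheory Filter Topology Metric Set
open scoped ENNReal RealInnerProductSpace

namespace Vale.Agent.P074

variable {d : ℕ}

lemma exists_dual {φ : Euc d → ℝ} (hφ : Continuous φ) {R₀ : ℝ} (hR₀ : 0 ≤ R₀) :
    ∃ ψ : Euc d → ℝ, (∀ y y', |ψ y - ψ y'| ≤ R₀ * ‖y - y'‖) ∧
      (∀ x y, ‖x‖ ≤ R₀ → ⟪x, y⟫ - φ x ≤ ψ y) ∧
      ∀ x y, (∀ z, φ x + ⟪y, z - x⟫ ≤ φ z) → ψ y ≤ ⟪x, y⟫ - φ x := by
  let S : Euc d → Set ℝ := fun y => (fun x => ⟪x, y⟫ - φ x) '' closedBall 0 R₀
  have hne : ∀ y, (S y).Nonempty := fun y => (nonempty_closedBall.2 hR₀).image _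
  have hb : ∀ y, BddAbove (S y) := fun y =>
    ((isCompact_closedBall 0 R₀).image ((continuous_id.inner continuous_const).sub hφ)).bddAbove
  have hge : ∀ x y, ‖x‖ ≤ R₀ → ⟪x, y⟫ - φ x ≤ sSup (S y) := fun x y hx =>
    le_csSup (hb y) ⟨x, mem_closedBall_zero_iff.2 hx, rfl⟩
  refine ⟨fun y => sSup (S y), ?_, hge, fun x y h => csSup_le (hne y) ?_⟩
  · have h1 : ∀ y y', sSup (S y) ≤ sSup (S y') + R₀ * ‖y - y'‖ := fun y y' => by
      refine csSup_le (hne y) ?_
      rintro r ⟨x, hx, rfl⟩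
      have hx' := mem_closedBall_zero_iff.1 hx
      have h := (real_inner_le_norm x (y - y')).trans
        (mul_le_mul_of_nonneg_right hx' (norm_nonneg _))
      rw [inner_sub_right] at h
      linarith [hge x y' hx']
    intro y y'
    have := h1 y' y
    rw [norm_sub_rev] at this
    rw [abs_le]
    constructor <;> linarith [h1 y y']
  · rintro r ⟨z, -, rfl⟩
    have := h z
    rw [inner_sub_right] at this
    simp only [real_inner_comm] at this ⊢
    linarith

/-- The second difference of `φ` in all coordinate directions. -/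
noncomputable def sdSum (φ : Euc d → ℝ) (m : ℝ) (x : Euc d) : ℝ :=
  ∑ i : Fin d, (φ (x + EuclideanSpace.single i m) + φ (x - EuclideanSpace.single i m) - 2 * φ x)

lemma bregman_le_sdSum (hd : 0 < d) {φ : Euc d → ℝ} (hφ : ConvexOn ℝ univ φ) {x y z : Euc d}
    (hy : ∀ w, φ x + ⟪y, w - x⟫ ≤ φ w) {m : ℝ} (hm : 0 < m) (hz : ∀ i, |d * z i| ≤ m) :
    φ (x + z) - φ x - ⟪y, z⟫ ≤ sdSum φ m x := by
  have hd' : (1 : ℝ) ≤ d := by exact_mod_cast hd
  have hcoord : ∀ (i : Fin d) (a : ℝ), ⟪y, EuclideanSpace.single i a⟫ = a * y i := fun i a => by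
    simp [EuclideanSpace.inner_single_right]
  have hone : ∀ i, φ (x + EuclideanSpace.single i (d * z i)) - φ x - d * z i * y i
      ≤ φ (x + EuclideanSpace.single i m) + φ (x - EuclideanSpace.single i m) - 2 * φ x := by
    intro i
    obtain ⟨hl, hu⟩ := abs_le.1 (hz i)
    set a : ℝ := d * z i
    set θ : ℝ := (a + m) / (2 * m)
    have hθ0 : 0 ≤ θ := div_nonneg (by linarith) (by linarith)
    have hθ1 : θ ≤ 1 := (div_le_one (by linarith)).2 (by linarith)
    have hsum : θ • (x + EuclideanSpace.single i m) + (1 - θ) • (x - EuclideanSpace.single i m)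
        = x + EuclideanSpace.single i a := by
      ext j
      by_cases hj : j = i
      · subst hj
        simp [θ]
        field_simp
        ring
      · simp [hj]
        ring
    have hc := hφ.2 (mem_univ (x + EuclideanSpace.single i m))
      (mem_univ (x - EuclideanSpace.single i m)) hθ0 (sub_nonneg.2 hθ1) (by ring)
    rw [hsum, smul_eq_mul, smul_eq_mul] at hc
    have hp := hy (x + EuclideanSpace.single i m)
    have hq := hy (x - EuclideanSpace.single i m)
    rw [add_sub_cancel_left, hcoord] at hp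
    rw [sub_sub_cancel_left, inner_neg_right, hcoord] at hq
    have ha : a = (2 * θ - 1) * m := by simp only [θ]; field_simp; ring
    rw [ha]
    rw [ha] at hc
    nlinarith [mul_nonneg (sub_nonneg.2 hθ1) (by linarith :
      0 ≤ φ (x + EuclideanSpace.single i m) - φ x - m * y i),
      mul_nonneg hθ0 (by linarith :
      0 ≤ φ (x - EuclideanSpace.single i m) - φ x + m * y i)]
  have hpos : ∀ i, 0 ≤ φ (x + EuclideanSpace.single i m) + φ (x - EuclideanSpace.single i m)
      - 2 * φ x := fun i => by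
    have hp := hy (x + EuclideanSpace.single i m)
    have hq := hy (x - EuclideanSpace.single i m)
    rw [add_sub_cancel_left] at hp
    rw [sub_sub_cancel_left, inner_neg_right] at hq
    linarith
  have hdecomp : ∑ i : Fin d, (1 / (d : ℝ)) • (x + EuclideanSpace.single i (d * z i)) = x + z := by
    ext j
    simp [Finset.sum_add_distrib, Finset.sum_apply, Pi.single_apply, mul_add]
    field_simp
  have hJ := hφ.map_sum_le (t := Finset.univ) (w := fun _ : Fin d => 1 / (d : ℝ))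
    (p := fun i => x + EuclideanSpace.single i (d * z i)) (fun i _ => by positivity)
    (by simp; field_simp) (fun i _ => mem_univ _)
  rw [hdecomp] at hJ
  simp only [smul_eq_mul, ← Finset.mul_sum] at hJ
  have hyz : ⟪y, z⟫ = ∑ i, z i * y i := by simp [PiLp.inner_apply]
  have hS := Finset.sum_le_sum (s := Finset.univ) (fun i _ => hone i)
  have hS0 : 0 ≤ sdSum φ m x := Finset.sum_nonneg fun i _ => hpos i
  rw [Finset.sum_sub_distrib, Finset.sum_sub_distrib, Finset.sum_const, Finset.card_univ,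
    Fintype.card_fin, nsmul_eq_mul] at hS
  simp only [mul_assoc, ← Finset.mul_sum, ← hyz] at hS
  have hJ' : (d : ℝ) * φ (x + z) ≤ ∑ i : Fin d, φ (x + EuclideanSpace.single i (d * z i)) := by
    rw [one_div, ← div_eq_inv_mul, le_div_iff₀ (by linarith)] at hJ
    linarith
  have : (d : ℝ) * (φ (x + z) - φ x - ⟪y, z⟫) ≤ (d : ℝ) * sdSum φ m x := by
    have h0 : sdSum φ m x ≤ (d : ℝ) * sdSum φ m x := le_mul_of_one_le_left hS0 hd'
    have hS' : ∑ i : Fin d, φ (x + EuclideanSpace.single i (d * z i)) - d * φ x - d * ⟪y, z⟫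
        ≤ sdSum φ m x := hS
    linarith
  exact le_of_mul_le_mul_left this (by linarith)

lemma exists_everywhere {ρ μ : Measure (Euc d)} {T : Euc d → Euc d} {Y : Set (Euc d)}
    (hY : MeasurableSet Y) (hYne : Y.Nonempty) (hμY : μ Yᶜ = 0) (hT : IsOptimalMap ρ μ T) :
    ∃ T' : Euc d → Euc d, T' =ᵐ[ρ] T ∧ (∀ x, T' x ∈ Y) ∧ IsOptimalMap ρ μ T' := by
  classical
  obtain ⟨hTm, hTmap, hTopt⟩ := hT
  obtain ⟨y₀, hy₀⟩ := hYne
  let T' := fun x => if T x ∈ Y then T x else y₀
  have hae : T' =ᵐ[ρ] T := by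
    have : ∀ᵐ y ∂ρ.map T, y ∈ Y := by
      rw [hTmap]
      exact mem_ae_iff.2 hμY
    filter_upwards [(ae_map_iff hTm.aemeasurable hY).1 this] with x hx
    exact if_pos hx
  refine ⟨T', hae, fun x => ?_, Measurable.ite (hTm hY) hTm measurable_const, ?_, ?_⟩
  · simp only [T']
    split_ifs with h
    exacts [h, hy₀]
  · rw [Measure.map_congr hae, hTmap]
  · intro S hS hSmap
    refine le_trans (le_of_eq (lintegral_congr_ae ?_)) (hTopt S hS hSmap)
    filter_upwards [hae] with x hx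
    rw [hx]

lemma coupling_isProbabilityMeasure {μ ν : Measure (Euc d)} [IsProbabilityMeasure μ]
    {π : Measure (Euc d × Euc d)} (hπ : IsCoupling μ ν π) : IsProbabilityMeasure π := by
  constructor
  rw [← preimage_univ (f := Prod.fst), ← Measure.map_apply measurable_fst MeasurableSet.univ,
    hπ.1, measure_univ]

lemma integral_map_sub_le {ρ : Measure (Euc d)} [IsProbabilityMeasure ρ]
    {Y : Set (Euc d)} (hY : IsCompact Y) {T U : Euc d → Euc d} (hT : Measurable T)
    (hU : Measurable U) (hTY : ∀ x, T x ∈ Y) (hUY : ∀ x, U x ∈ Y)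
    {F : Euc d → ℝ} {L : ℝ} (hF : Continuous F) (hlip : ∀ y y', |F y - F y'| ≤ L * ‖y - y'‖)
    {π : Measure (Euc d × Euc d)} (hπ : IsCoupling (ρ.map T) (ρ.map U) π) :
    |∫ x, (F (U x) - F (T x)) ∂ρ| ≤ L * ∫ p, ‖p.1 - p.2‖ ∂π := by
  have hpT : IsProbabilityMeasure (ρ.map T) := Measure.isProbabilityMeasure_map hT.aemeasurable
  have := coupling_isProbabilityMeasure hπ
  obtain ⟨b, hb⟩ := hY.exists_bound_of_continuousOn hF.continuousOn
  obtain ⟨R, hR⟩ := hY.isBounded.exists_norm_le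
  have h1 : ∀ᵐ p ∂π, p.1 ∈ Y := by
    have h : ∀ᵐ y ∂π.map Prod.fst, y ∈ Y := by
      rw [hπ.1]
      exact (ae_map_iff hT.aemeasurable hY.measurableSet).2 (ae_of_all _ hTY)
    exact (ae_map_iff measurable_fst.aemeasurable hY.measurableSet).1 h
  have h2 : ∀ᵐ p ∂π, p.2 ∈ Y := by
    have h : ∀ᵐ y ∂π.map Prod.snd, y ∈ Y := by
      rw [hπ.2]
      exact (ae_map_iff hU.aemeasurable hY.measurableSet).2 (ae_of_all _ hUY)
    exact (ae_map_iff measurable_snd.aemeasurable hY.measurableSet).1 h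
  have hiT : Integrable (fun x => F (T x)) ρ :=
    Integrable.of_bound (hF.measurable.comp hT).aestronglyMeasurable b
      (ae_of_all _ fun x => hb _ (hTY x))
  have hiU : Integrable (fun x => F (U x)) ρ :=
    Integrable.of_bound (hF.measurable.comp hU).aestronglyMeasurable b
      (ae_of_all _ fun x => hb _ (hUY x))
  have hi1 : Integrable (fun p : Euc d × Euc d => F p.1) π :=
    Integrable.of_bound (hF.comp continuous_fst).aestronglyMeasurable b (h1.mono fun p hp => hb _ hp)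
  have hi2 : Integrable (fun p : Euc d × Euc d => F p.2) π :=
    Integrable.of_bound (hF.comp continuous_snd).aestronglyMeasurable b (h2.mono fun p hp => hb _ hp)
  have hin : Integrable (fun p : Euc d × Euc d => ‖p.1 - p.2‖) π :=
    Integrable.of_bound (continuous_fst.sub continuous_snd).norm.aestronglyMeasurable (R + R) (by
      filter_upwards [h1, h2] with p hp hq
      rw [norm_norm]
      exact (norm_sub_le _ _).trans (add_le_add (hR _ hp) (hR _ hq)))
  have e1 : ∫ x, F (T x) ∂ρ = ∫ p, F p.1 ∂π := by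
    rw [← integral_map hT.aemeasurable hF.aestronglyMeasurable, ← hπ.1,
      integral_map measurable_fst.aemeasurable hF.aestronglyMeasurable]
  have e2 : ∫ x, F (U x) ∂ρ = ∫ p, F p.2 ∂π := by
    rw [← integral_map hU.aemeasurable hF.aestronglyMeasurable, ← hπ.2,
      integral_map measurable_snd.aemeasurable hF.aestronglyMeasurable]
  rw [integral_sub hiU hiT, e1, e2, ← integral_sub hi2 hi1, ← integral_const_mul]
  refine abs_integral_le_integral_abs.trans (integral_mono (hi2.sub hi1).abs (hin.const_mul L) ?_)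
  intro p
  simpa [norm_sub_rev] using hlip p.2 p.1

/-- `(∫ |T - U|² dρ)² ≤ C ∫ |y - z| dπ` for every coupling `π`. -/
theorem exists_stability (hd : 0 < d) {K : Set (Euc d)} (hK : IsCompact K)
    (hconv : Convex ℝ K) (hKint : (interior K).Nonempty) {Y : Set (Euc d)} (hY : IsCompact Y)
    (hYne : Y.Nonempty) :
    ∃ C : ℝ, 0 ≤ C ∧ ∀ μ ν : Measure (Euc d), μ Yᶜ = 0 → ν Yᶜ = 0 → ∀ T U : Euc d → Euc d,
      IsOptimalMap (uniformMeasure K) μ T → IsOptimalMap (uniformMeasure K) ν U →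
      ∀ π, IsCoupling μ ν π →
      (∫⁻ x, ‖T x - U x‖ₑ ^ 2 ∂uniformMeasure K) ^ 2
        ≤ ENNReal.ofReal C * ∫⁻ p, ‖p.1 - p.2‖ₑ ∂π := by
  have hK0 : volume K ≠ 0 := (Measure.measure_pos_of_nonempty_interior volume hKint).ne'
  have hρ : IsProbabilityMeasure (uniformMeasure K) := by
    constructor
    simp [uniformMeasure, ENNReal.inv_mul_cancel hK0 hK.measure_lt_top.ne]
  obtain ⟨R, hR1, hR⟩ : ∃ R : ℝ, 1 ≤ R ∧ ∀ y ∈ Y, ‖y‖ ≤ R := by
    obtain ⟨R, hR⟩ := hY.isBounded.exists_norm_le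
    exact ⟨max R 1, le_max_right _ _, fun y hy => (hR y hy).trans (le_max_left _ _)⟩
  obtain ⟨D, hD0, hD⟩ : ∃ D : ℝ, 0 ≤ D ∧ ∀ x ∈ K, ‖x‖ ≤ D := by
    obtain ⟨D, hD⟩ := hK.isBounded.exists_norm_le
    exact ⟨max D 0, le_max_right _ _, fun y hy => (hD y hy).trans (le_max_left _ _)⟩
  set Λ : ℝ := 1 + 2 * R
  set R₀ : ℝ := D + 2 * R * Λ
  obtain ⟨C₀, hC₀, hsd⟩ := exists_secondDiff_bound hK hconv hKint (d * (2 * R * Λ))
  set c : ℝ := ((volume K)⁻¹).toReal
  have hc : 0 ≤ c := ENNReal.toReal_nonneg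
  set B : ℝ := d * (c * (C₀ * R * (d * (2 * R)) ^ 2))
  set A₀ : ℝ := R₀ + R₀
  have hR₀ : 0 ≤ R₀ := by positivity
  refine ⟨(A₀ + B) ^ 2, sq_nonneg _, fun μ ν hμY hνY T₁ U₁ hT₁ hU₁ π hπ => ?_⟩
  obtain ⟨T, hTae, hTY, hTm, rfl, hTopt⟩ := exists_everywhere hY.measurableSet hYne hμY hT₁
  obtain ⟨U, hUae, hUY, hUm, rfl, hUopt⟩ := exists_everywhere hY.measurableSet hYne hνY hU₁
  rw [lintegral_congr_ae (g := fun x => ‖T x - U x‖ₑ ^ 2)
    (by filter_upwards [hTae, hUae] with x h h'; rw [h, h'])]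
  set ρ := uniformMeasure K
  have hTR : ∀ x, ‖T x‖ ≤ R := fun x => hR _ (hTY x)
  have hUR : ∀ x, ‖U x‖ ≤ R := fun x => hR _ (hUY x)
  obtain ⟨A, hAK, hA, hAcm⟩ := exists_cyclicallyMonotone hd hK hconv hKint hTm hTR hTopt
  obtain ⟨A', hA'K, hA', hA'cm⟩ := exists_cyclicallyMonotone hd hK hconv hKint hUm hUR hUopt
  have hAρ : ∀ᵐ x ∂ρ, x ∈ A := Measure.ae_smul_measure hA _
  have hA'ρ : ∀ᵐ x ∂ρ, x ∈ A' := Measure.ae_smul_measure hA' _
  obtain ⟨a, ha⟩ := hAρ.exists
  obtain ⟨a', ha'⟩ := hA'ρ.exists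
  obtain ⟨φ, hφlip, hφconv, hφsub⟩ := exists_potential ha hTR hAcm
  obtain ⟨φ', hφ'lip, -, hφ'sub⟩ := exists_potential ha' hUR hA'cm
  have hcont : ∀ {f : Euc d → ℝ} {L : ℝ}, 0 ≤ L → (∀ x y, |f x - f y| ≤ L * ‖x - y‖) →
      Continuous f := fun {f L} hL h => by
    refine (LipschitzWith.of_dist_le_mul (K := L.toNNReal) fun x y => ?_).continuous
    rw [Real.coe_toNNReal L hL, dist_eq_norm, dist_eq_norm, Real.norm_eq_abs]
    exact h x y
  have hφc := hcont (by linarith) hφlip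
  have hφ'c := hcont (by linarith) hφ'lip
  obtain ⟨ψ, hψlip, hψge, hψle⟩ := exists_dual hφc hR₀
  obtain ⟨ψ', hψ'lip, hψ'ge, hψ'le⟩ := exists_dual hφ'c hR₀
  have hψc := hcont hR₀ hψlip
  have hψ'c := hcont hR₀ hψ'lip
  have hπprob : IsProbabilityMeasure π :=
    have : IsProbabilityMeasure (ρ.map T) := Measure.isProbabilityMeasure_map hTm.aemeasurable
    coupling_isProbabilityMeasure hπ
  set J : ℝ := ∫ x, ‖U x - T x‖ ^ 2 ∂ρ
  set ω : ℝ := ∫ p, ‖p.1 - p.2‖ ∂π
  have hiJ : Integrable (fun x => ‖U x - T x‖ ^ 2) ρ :=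
    Integrable.of_bound ((hUm.sub hTm).norm.pow_const 2).aestronglyMeasurable ((2 * R) ^ 2)
      (ae_of_all _ fun x => by
        rw [Real.norm_eq_abs, abs_of_nonneg (sq_nonneg _)]
        exact pow_le_pow_left₀ (norm_nonneg _) (by linarith [norm_sub_le (U x) (T x), hUR x, hTR x]) 2)
  have hω0 : 0 ≤ ω := integral_nonneg fun p => norm_nonneg _
  have hsupp : ∀ᵐ p ∂π, ‖p.1 - p.2‖ ≤ 2 * R := by
    have hm := (isClosed_closedBall (x := (0 : Euc d)) (ε := R)).measurableSet
    have h1 : ∀ᵐ y ∂π.map Prod.fst, y ∈ closedBall (0 : Euc d) R := by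
      rw [hπ.1]
      exact (ae_map_iff hTm.aemeasurable hm).2
        (ae_of_all _ fun x => mem_closedBall_zero_iff.2 (hTR x))
    have h2 : ∀ᵐ y ∂π.map Prod.snd, y ∈ closedBall (0 : Euc d) R := by
      rw [hπ.2]
      exact (ae_map_iff hUm.aemeasurable hm).2
        (ae_of_all _ fun x => mem_closedBall_zero_iff.2 (hUR x))
    filter_upwards [(ae_map_iff measurable_fst.aemeasurable hm).1 h1,
      (ae_map_iff measurable_snd.aemeasurable hm).1 h2] with p hp hq
    linarith [norm_sub_le p.1 p.2, mem_closedBall_zero_iff.1 hp, mem_closedBall_zero_iff.1 hq]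
  have hiω : Integrable (fun p : Euc d × Euc d => ‖p.1 - p.2‖) π :=
    Integrable.of_bound (continuous_fst.sub continuous_snd).norm.aestronglyMeasurable (2 * R)
      (hsupp.mono fun p hp => by rwa [norm_norm])
  have hωR : ω ≤ 2 * R := by
    simpa [integral_const] using integral_mono_ae hiω (integrable_const (2 * R)) hsupp
  have key : ∀ l : ℝ, 0 < l → l ≤ Λ → l * J ≤ A₀ * ω + B * l ^ 2 := by
    intro l hl hlΛ
    set m : ℝ := d * (2 * R * l)
    have hm : 0 < m := by positivity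
    have hpt : ∀ᵐ x ∂ρ, l * ‖U x - T x‖ ^ 2 ≤
        ((ψ (U x) - ψ (T x)) + (ψ' (T x) - ψ' (U x))) + sdSum φ m x := by
      filter_upwards [hAρ, hA'ρ] with x hx hx'
      have hxD := hD x (hAK hx)
      set z : Euc d := l • (U x - T x)
      have hzn : ‖z‖ ≤ 2 * R * l := by
        simp only [z]
        rw [norm_smul, Real.norm_eq_abs, abs_of_pos hl]
        nlinarith [norm_sub_le (U x) (T x), hUR x, hTR x]
      have hx1 : ‖x + z‖ ≤ R₀ := by
        simp only [R₀]
        nlinarith [norm_add_le x z]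
      have hz : ∀ i, |(d : ℝ) * z i| ≤ m := fun i => by
        rw [abs_mul, Nat.abs_cast]
        refine mul_le_mul_of_nonneg_left (le_trans ?_ hzn) (Nat.cast_nonneg _)
        exact Real.norm_eq_abs (z i) ▸ PiLp.norm_apply_le z i
      have h1 := bregman_le_sdSum hd hφconv (hφsub x hx) hm hz
      have h2 := hψge (x + z) (U x) hx1
      have h3 := hψle x (T x) (hφsub x hx)
      have h4 := hψ'ge x (T x) (hxD.trans (le_add_of_nonneg_right (by positivity)))
      have h5 := hψ'le x (U x) (hφ'sub x hx')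
      have h6 : ⟪z, U x⟫ - ⟪T x, z⟫ = l * ‖U x - T x‖ ^ 2 := by
        rw [real_inner_comm z (T x), ← inner_sub_right, real_inner_smul_left,
          real_inner_self_eq_norm_sq]
      rw [inner_add_left] at h2
      simp only [real_inner_comm] at h1 h2 h3 h4 h5 h6 ⊢
      linarith
    have hiψ : ∀ {F : Euc d → ℝ}, Continuous F → ∀ {S : Euc d → Euc d}, Measurable S →
        (∀ x, S x ∈ Y) → Integrable (fun x => F (S x)) ρ := fun {F} hF {S} hS hSY => by
      obtain ⟨b, hb⟩ := hY.exists_bound_of_continuousOn hF.continuousOn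
      exact Integrable.of_bound (hF.measurable.comp hS).aestronglyMeasurable b
        (ae_of_all _ fun x => hb _ (hSY x))
    have hterm : ∀ i : Fin d, Continuous fun x => φ (x + EuclideanSpace.single i m)
        + φ (x - EuclideanSpace.single i m) - 2 * φ x := fun i => by fun_prop
    have hiterm : ∀ i : Fin d, IntegrableOn (fun x => φ (x + EuclideanSpace.single i m)
        + φ (x - EuclideanSpace.single i m) - 2 * φ x) K :=
      fun i => (hterm i).continuousOn.integrableOn_compact hK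
    have hiS : Integrable (sdSum φ m) ρ :=
      (integrable_finsetSum _ fun i _ => hiterm i).smul_measure (ENNReal.inv_ne_top.2 hK0)
    have hi1 : Integrable (fun x => ψ (U x) - ψ (T x)) ρ :=
      (hiψ hψc hUm hUY).sub (hiψ hψc hTm hTY)
    have hi2 : Integrable (fun x => ψ' (T x) - ψ' (U x)) ρ :=
      (hiψ hψ'c hTm hTY).sub (hiψ hψ'c hUm hUY)
    have hI := integral_mono_ae (hiJ.const_mul l) ((hi1.add hi2).add hiS) hpt
    simp only [Pi.add_apply] at hI
    rw [integral_const_mul, integral_add (f := fun x => (ψ (U x) - ψ (T x)) + (ψ' (T x) - ψ' (U x)))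
      (g := sdSum φ m) (hi1.add hi2) hiS, integral_add hi1 hi2] at hI
    have hb1 := (abs_le.1 (integral_map_sub_le hY hTm hUm hTY hUY hψc hψlip hπ)).2
    have hb2 : ∫ x, (ψ' (T x) - ψ' (U x)) ∂ρ ≤ R₀ * ω := by
      have h := (abs_le.1 (integral_map_sub_le hY hTm hUm hTY hUY hψ'c hψ'lip hπ)).1
      have e : ∫ x, (ψ' (T x) - ψ' (U x)) ∂ρ = -∫ x, (ψ' (U x) - ψ' (T x)) ∂ρ := by
        rw [← integral_neg]
        simp
      linarith
    have hb3 : ∫ x, sdSum φ m x ∂ρ ≤ B * l ^ 2 := by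
      have h0 : ∫ x, sdSum φ m x ∂ρ = c * ∫ x in K, sdSum φ m x := by
        simp only [ρ, uniformMeasure, integral_smul_measure, smul_eq_mul, c]
      rw [h0]
      simp only [sdSum]
      rw [integral_finsetSum _ fun i _ => hiterm i]
      calc c * ∑ i : Fin d, ∫ x in K, (φ (x + EuclideanSpace.single i m)
              + φ (x - EuclideanSpace.single i m) - 2 * φ x)
          ≤ c * ∑ _i : Fin d, C₀ * R * m ^ 2 := by
            refine mul_le_mul_of_nonneg_left (Finset.sum_le_sum fun i _ => ?_) hc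
            have hn : ‖(EuclideanSpace.single i m : Euc d)‖ = m := by
              simp [abs_of_pos hm]
            have := hsd φ R hφc (by linarith) hφlip (EuclideanSpace.single i m) (by
              rw [hn]
              simp only [m]
              gcongr)
            rwa [hn] at this
        _ = B * l ^ 2 := by
            simp [B, m]
            ring
    simp only [A₀, J]
    linarith
  have hJ2 : J ^ 2 ≤ (A₀ + B) ^ 2 * ω := by
    have hJ0 : 0 ≤ J := integral_nonneg fun x => sq_nonneg _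
    rcases hω0.eq_or_lt with h | h
    · have hJle : J ≤ 0 := by
        have : ∀ᶠ l in 𝓝[>] (0 : ℝ), J ≤ B * l := by
          filter_upwards [self_mem_nhdsWithin, nhdsWithin_le_nhds
            (eventually_le_nhds (show (0 : ℝ) < Λ by positivity))] with l (hl : 0 < l) hlΛ
          have := key l hl hlΛ
          rw [← h] at this
          nlinarith
        have ht : Tendsto (fun l : ℝ => B * l) (𝓝[>] 0) (𝓝 0) := by
          simpa using ((tendsto_id (x := 𝓝 (0 : ℝ))).mono_left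
            (nhdsWithin_le_nhds (s := Ioi (0 : ℝ)))).const_mul B
        exact ge_of_tendsto ht this
      rw [le_antisymm hJle hJ0, ← h]
      simp
    · have hs : 0 < Real.sqrt ω := Real.sqrt_pos.2 h
      have hsq : Real.sqrt ω ^ 2 = ω := Real.sq_sqrt hω0
      have hle : Real.sqrt ω ≤ Λ := by
        simp only [Λ]
        nlinarith
      have h1 := key _ hs hle
      have h2 : J ≤ (A₀ + B) * Real.sqrt ω := by
        refine le_of_mul_le_mul_left ?_ hs
        nlinarith
      calc J ^ 2 ≤ ((A₀ + B) * Real.sqrt ω) ^ 2 := pow_le_pow_left₀ hJ0 h2 2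
        _ = _ := by rw [mul_pow, hsq]
  have eJ : ∫⁻ x, ‖T x - U x‖ₑ ^ 2 ∂ρ = ENNReal.ofReal J := by
    rw [ofReal_integral_eq_lintegral_ofReal hiJ (ae_of_all _ fun x => sq_nonneg _)]
    refine lintegral_congr fun x => ?_
    rw [← ofReal_norm, ← ENNReal.ofReal_pow (norm_nonneg _), norm_sub_rev]
  have eω : ∫⁻ p, ‖p.1 - p.2‖ₑ ∂π = ENNReal.ofReal ω := by
    rw [ofReal_integral_eq_lintegral_ofReal hiω (ae_of_all _ fun x => norm_nonneg _)]
    simp [ofReal_norm]
  rw [eJ, eω, ← ENNReal.ofReal_pow (integral_nonneg fun x => sq_nonneg _),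
    ← ENNReal.ofReal_mul (sq_nonneg _)]
  exact ENNReal.ofReal_le_ofReal hJ2

lemma W1_le_W2 {μ ν : Measure (Euc d)} [IsProbabilityMeasure μ] : W1 μ ν ≤ W2 μ ν := by
  have h : W1 μ ν ^ (2 : ℝ) ≤
      ⨅ (π : Measure (Euc d × Euc d)) (_ : IsCoupling μ ν π), ∫⁻ p, ‖p.1 - p.2‖ₑ ^ 2 ∂π := by
    refine le_iInf₂ fun π hπ => ?_
    have := coupling_isProbabilityMeasure hπ
    refine le_trans (ENNReal.rpow_le_rpow (iInf₂_le π hπ) (by norm_num)) ?_
    have hm : AEMeasurable (fun p : Euc d × Euc d => ‖p.1 - p.2‖ₑ) π := by fun_prop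
    have := ENNReal.lintegral_mul_le_Lp_mul_Lq π Real.HolderConjugate.two_two hm
      (aemeasurable_const (b := (1 : ℝ≥0∞)))
    simp only [Pi.mul_apply, mul_one, ENNReal.one_rpow, lintegral_const, measure_univ] at this
    refine (ENNReal.rpow_le_rpow this (by norm_num)).trans (le_of_eq ?_)
    rw [← ENNReal.rpow_mul]
    norm_num [ENNReal.rpow_two]
  calc W1 μ ν = (W1 μ ν ^ (2 : ℝ)) ^ (1 / 2 : ℝ) := by
        rw [← ENNReal.rpow_mul]
        norm_num
    _ ≤ _ := ENNReal.rpow_le_rpow h (by norm_num)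

theorem admissibleW1_quarter (hd : 0 < d) : AdmissibleW1 d (1 / 4) := by
  intro K hK hconv hKint Y hY hYne
  obtain ⟨C, hC, hst⟩ := exists_stability hd hK hconv hKint hY hYne
  refine ⟨(C + 1) ^ (1 / 4 : ℝ), fun μ ν _ _ hμ hν T U hT hU => ?_⟩
  have h0 : ENNReal.ofReal (C + 1) ≠ 0 := (ENNReal.ofReal_pos.2 (by linarith)).ne'
  have h : (∫⁻ x, ‖T x - U x‖ₑ ^ 2 ∂uniformMeasure K) ^ 2
      ≤ ENNReal.ofReal (C + 1) * W1 μ ν := by
    rw [W1, ENNReal.mul_iInf_of_ne h0 ENNReal.ofReal_ne_top]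
    refine le_iInf fun π => ?_
    rw [ENNReal.mul_iInf_of_ne h0 ENNReal.ofReal_ne_top]
    refine le_iInf fun hπ => (hst μ ν hμ hν T U hT hU π hπ).trans ?_
    gcongr
    linarith
  calc mapDist (uniformMeasure K) T U
      = ((∫⁻ x, ‖T x - U x‖ₑ ^ 2 ∂uniformMeasure K) ^ 2) ^ (1 / 4 : ℝ) := by
        rw [mapDist, ← ENNReal.rpow_two ((∫⁻ x, ‖T x - U x‖ₑ ^ 2 ∂uniformMeasure K)),
          ← ENNReal.rpow_mul]
        norm_num
    _ ≤ (ENNReal.ofReal (C + 1) * W1 μ ν) ^ (1 / 4 : ℝ) :=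
        ENNReal.rpow_le_rpow h (by norm_num)
    _ = ENNReal.ofReal ((C + 1) ^ (1 / 4 : ℝ)) * W1 μ ν ^ (1 / 4 : ℝ) := by
        rw [ENNReal.mul_rpow_of_nonneg _ _ (by norm_num),
          ENNReal.ofReal_rpow_of_nonneg (by linarith) (by norm_num)]

theorem admissible_quarter (hd : 0 < d) : Admissible d (1 / 4) := by
  intro K hK hconv hKint Y hY hYne
  obtain ⟨C, hC⟩ := admissibleW1_quarter hd K hK hconv hKint Y hY hYne
  refine ⟨C, fun μ ν hμp hνp hμ hν T U hT hU => (hC μ ν hμp hνp hμ hν T U hT hU).trans ?_⟩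
  exact mul_le_mul' le_rfl (ENNReal.rpow_le_rpow W1_le_W2 (by norm_num))

end Vale.Agent.P074
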